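import Vale.Agent.Lib.P348.Defs

namespace Vale.Agent.Lib.P348

open Matrix

theorem r2_mul_r2 : r2 * r2 = 1 / 2 := by
  unfold r2
  rw [← Complex.ofReal_mul, ← mul_inv, Real.mul_self_sqrt (by norm_num)]
  push_cast
  norm_num

theorem star_r2 : (starRingEnd ℂ) r2 = r2 := by
  unfold r2
  exact Complex.conj_ofReal _

theorem r2_sq : r2 ^ 2 = 1 / 2 := by rw [pow_two, r2_mul_r2]

theorem r2_cu : r2 ^ 3 = r2 * (1 / 2) := by
  rw [pow_succ, r2_sq]
  ring

theorem I_cu : Complex.I ^ 3 = -Complex.I := by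
  rw [pow_succ, Complex.I_sq]
  ring

theorem Sx_herm : Sxᴴ = Sx := by
  ext i j
  fin_cases i <;> fin_cases j <;> simp [Sx, Matrix.conjTranspose_apply, star_r2]

theorem Sy_herm : Syᴴ = Sy := by
  ext i j
  fin_cases i <;> fin_cases j <;> simp [Sy, Matrix.conjTranspose_apply, star_r2]

theorem Sz_herm : Szᴴ = Sz := by
  ext i j
  fin_cases i <;> fin_cases j <;> simp [Sz, Matrix.conjTranspose_apply]

theorem comm_xy : Sx * Sy - Sy * Sx = Complex.I • Sz := by
  ext i j
  fin_cases i <;> fin_cases j <;>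
    simp [Sx, Sy, Sz, Matrix.mul_apply, Fin.sum_univ_three] <;>
    (try ring_nf) <;> (try simp only [r2_sq, r2_cu, I_cu, Complex.I_sq]) <;> (try ring_nf)

theorem comm_yz : Sy * Sz - Sz * Sy = Complex.I • Sx := by
  ext i j
  fin_cases i <;> fin_cases j <;>
    simp [Sx, Sy, Sz, Matrix.mul_apply, Fin.sum_univ_three]

theorem comm_zx : Sz * Sx - Sx * Sz = Complex.I • Sy := by
  ext i j
  fin_cases i <;> fin_cases j <;>
    simp [Sx, Sy, Sz, Matrix.mul_apply, Fin.sum_univ_three] <;>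
    (try ring_nf) <;> (try simp only [r2_sq, r2_cu, I_cu, Complex.I_sq]) <;> (try ring_nf)

theorem casimir : Sx * Sx + Sy * Sy + Sz * Sz = (2 : ℂ) • (1 : Matrix (Fin 3) (Fin 3) ℂ) := by
  ext i j
  fin_cases i <;> fin_cases j <;>
    simp [Sx, Sy, Sz, Matrix.mul_apply, Fin.sum_univ_three] <;>
    (try ring_nf) <;> (try simp only [r2_sq, r2_cu, I_cu, Complex.I_sq]) <;> (try ring_nf)

theorem Sx_cube : Sx * Sx * Sx = Sx := by
  ext i j
  fin_cases i <;> fin_cases j <;>
    simp [Sx, Matrix.mul_apply, Fin.sum_univ_three] <;>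
    (try ring_nf) <;> (try simp only [r2_sq, r2_cu, I_cu, Complex.I_sq]) <;> (try ring_nf)

theorem Sy_cube : Sy * Sy * Sy = Sy := by
  ext i j
  fin_cases i <;> fin_cases j <;>
    simp [Sy, Matrix.mul_apply, Fin.sum_univ_three] <;>
    (try ring_nf) <;> (try simp only [r2_sq, r2_cu, I_cu, Complex.I_sq]) <;> (try ring_nf)

theorem Sz_cube : Sz * Sz * Sz = Sz := by
  ext i j
  fin_cases i <;> fin_cases j <;>
    simp [Sz, Matrix.mul_apply, Fin.sum_univ_three]

end Vale.Agent.Lib.P348
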