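import Vale.Agent.Lib.P348.Defs2
import Vale.Agent.Lib.P348.Spin

namespace Vale.Agent.Lib.P348

open Matrix

variable {L : ℕ}

theorem site_mulVec (j : Fin L) (A : Matrix (Fin 3) (Fin 3) ℂ) (ψ : Cfg L → ℂ) (σ : Cfg L) :
    (site j A *ᵥ ψ) σ = ∑ s : Fin 3, A (σ j) s * ψ (Function.update σ j s) := by
  classical
  have hinj : Function.Injective (fun s : Fin 3 => Function.update σ j s) := by
    intro s s' h
    have := congrFun h j
    simpa using this
  have h1 : ∑ s : Fin 3, A (σ j) s * ψ (Function.update σ j s) =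
      ∑ τ ∈ Finset.univ.image (fun s : Fin 3 => Function.update σ j s),
        site j A σ τ * ψ τ := by
    rw [Finset.sum_image (fun a _ b _ h => hinj h)]
    refine Finset.sum_congr rfl fun s _ => ?_
    have : ∀ k, k ≠ j → σ k = Function.update σ j s k := by
      intro k hk
      rw [Function.update_of_ne hk]
    simp only [site, if_pos this, Function.update_self]
  rw [h1]
  show ∑ τ, site j A σ τ * ψ τ = _
  symm
  apply Finset.sum_subset (Finset.subset_univ _)
  intro τ _ hτ
  have : ¬ ∀ k, k ≠ j → σ k = τ k := by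
    intro hk
    apply hτ
    rw [Finset.mem_image]
    refine ⟨τ j, Finset.mem_univ _, ?_⟩
    funext k
    by_cases hkj : k = j
    · subst hkj
      simp
    · rw [Function.update_of_ne hkj]
      exact hk k hkj
  simp only [site, if_neg this, zero_mul]

private theorem I_mul_I_mul (x : ℂ) : Complex.I * (Complex.I * x) = -x := by
  rw [← mul_assoc, Complex.I_mul_I]
  ring

/-- entries of the lowering matrix: `S^- |s⟩ = sqrt 2 |s+1⟩` in the labels `0,1,2` -/
theorem Sm_apply (a s : Fin 3) : Sm a s = if s.val + 1 = a.val then 2 * r2 else 0 := by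
  fin_cases a <;> fin_cases s <;> simp [Sm, Sx, Sy, I_mul_I_mul] <;> ring

theorem Sp_apply (a s : Fin 3) : Sp a s = if a.val + 1 = s.val then 2 * r2 else 0 := by
  fin_cases a <;> fin_cases s <;> simp [Sp, Sx, Sy, I_mul_I_mul] <;> ring

theorem Sp_conjTranspose : Spᴴ = Sm := by
  unfold Sp Sm
  rw [conjTranspose_add, conjTranspose_smul, Sx_herm, Sy_herm]
  simp [sub_eq_add_neg]

theorem Sm_conjTranspose : Smᴴ = Sp := by
  unfold Sp Sm
  rw [conjTranspose_sub, conjTranspose_smul, Sx_herm, Sy_herm]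
  simp [sub_eq_add_neg]

/-- `(∑_j S^-_j ψ)(σ)` is `sqrt 2` times the sum of `ψ` over the configurations obtained from
`σ` by lowering one label by one -/
theorem tot_Sm_mulVec (ψ : Cfg L → ℂ) (σ : Cfg L) :
    (tot L Sm *ᵥ ψ) σ = 2 * r2 * ∑ j : Fin L, ∑ s : Fin 3,
      if s.val + 1 = (σ j).val then ψ (Function.update σ j s) else 0 := by
  unfold tot
  rw [Matrix.sum_mulVec, Finset.sum_apply, Finset.mul_sum]
  refine Finset.sum_congr rfl fun j _ => ?_
  rw [site_mulVec, Finset.mul_sum]
  refine Finset.sum_congr rfl fun s _ => ?_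
  rw [Sm_apply]
  split_ifs <;> simp

theorem tot_Sp_mulVec (ψ : Cfg L → ℂ) (σ : Cfg L) :
    (tot L Sp *ᵥ ψ) σ = 2 * r2 * ∑ j : Fin L, ∑ s : Fin 3,
      if (σ j).val + 1 = s.val then ψ (Function.update σ j s) else 0 := by
  unfold tot
  rw [Matrix.sum_mulVec, Finset.sum_apply, Finset.mul_sum]
  refine Finset.sum_congr rfl fun j _ => ?_
  rw [site_mulVec, Finset.mul_sum]
  refine Finset.sum_congr rfl fun s _ => ?_
  rw [Sp_apply]
  split_ifs <;> simp

theorem r2_pos : ∃ x : ℝ, 0 < x ∧ r2 = (x : ℂ) :=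
  ⟨(Real.sqrt 2)⁻¹, by positivity, rfl⟩

end Vale.Agent.Lib.P348
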