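import Vale.Agent.Lib.P348.Defs

namespace Vale.Agent.Lib.P348

open Matrix

open scoped Matrix.Norms.L2Operator

theorem norm_aux_re_star_dot_self {n : Type*} [Fintype n] (w : n → ℂ) :
    (star w ⬝ᵥ w).re = ‖WithLp.toLp 2 w‖ ^ 2 := by
  rw [EuclideanSpace.norm_sq_eq]
  simp only [dotProduct, Pi.star_apply, Complex.re_sum]
  refine Finset.sum_congr rfl (fun i _ => ?_)
  rw [Complex.star_def, ← Complex.normSq_eq_conj_mul_self, Complex.ofReal_re,
    Complex.normSq_eq_norm_sq]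

theorem norm_mulVec_sq_le {n : Type*} [Fintype n] [DecidableEq n] (B : Matrix n n ℂ)
    (v : n → ℂ) :
    (star (B *ᵥ v) ⬝ᵥ (B *ᵥ v)).re ≤ ‖B‖ ^ 2 * (star v ⬝ᵥ v).re := by
  rw [norm_aux_re_star_dot_self, norm_aux_re_star_dot_self, ← mul_pow]
  exact pow_le_pow_left₀ (norm_nonneg _) (Matrix.l2_opNorm_mulVec B (WithLp.toLp 2 v)) 2

theorem norm_le_one_of_cube {n : Type*} [Fintype n] [DecidableEq n] (B : Matrix n n ℂ)
    (hB : Bᴴ = B) (h3 : B * B * B = B) : ‖B‖ ≤ 1 := by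
  have hP : (B * B)ᴴ * (B * B) = B * B := by
    rw [conjTranspose_mul, hB, ← mul_assoc, h3]
  have h1 : ‖B * B‖ = ‖B * B‖ * ‖B * B‖ := by
    conv_lhs => rw [← hP]
    exact Matrix.l2_opNorm_conjTranspose_mul_self (B * B)
  have h2 : ‖B * B‖ = ‖B‖ * ‖B‖ := by
    have := Matrix.l2_opNorm_conjTranspose_mul_self B
    rwa [hB] at this
  have h0 : 0 ≤ ‖B‖ := norm_nonneg _
  have hx : ‖B * B‖ ≤ 1 := by
    by_contra hc
    push Not at hc
    nlinarith [norm_nonneg (B * B)]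
  nlinarith

end Vale.Agent.Lib.P348
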