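import Vale.Agent.Lib.P348.Defs

namespace Vale.Agent.Lib.P348

variable {L : ℕ}

private theorem nxt_val_cases (j : Fin L) :
    (j.val + 1 < L ∧ (nxt j).val = j.val + 1) ∨ (j.val + 1 = L ∧ (nxt j).val = 0) := by
  have hj := j.isLt
  rcases Nat.lt_or_ge (j.val + 1) L with h | h
  · left
    exact ⟨h, by simp [nxt, Nat.mod_eq_of_lt h]⟩
  · right
    have h' : j.val + 1 = L := by omega
    refine ⟨h', ?_⟩
    simp [nxt, h']

theorem nxt_ne (hL : 2 ≤ L) (j : Fin L) : nxt j ≠ j := by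
  intro h
  have hv : (nxt j).val = j.val := by rw [h]
  rcases nxt_val_cases j with ⟨_, h2⟩ | ⟨h1, h2⟩ <;> omega

theorem nxt_injective : Function.Injective (nxt : Fin L → Fin L) := by
  intro a b h
  have hv : (nxt a).val = (nxt b).val := by rw [h]
  apply Fin.ext
  rcases nxt_val_cases a with ⟨a1, a2⟩ | ⟨a1, a2⟩ <;>
    rcases nxt_val_cases b with ⟨b1, b2⟩ | ⟨b1, b2⟩ <;> omega

/-- the Neel configuration: `S^z = 1` on even sites and `S^z = -1` on odd sites -/
def neel (L : ℕ) : Cfg L := fun j => if j.val % 2 = 0 then 0 else 2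

theorem neel_nxt (hL : 2 ≤ L) (hev : Even L) (j : Fin L) :
    (neel L j = 0 ∧ neel L (nxt j) = 2) ∨ (neel L j = 2 ∧ neel L (nxt j) = 0) := by
  obtain ⟨m, hm⟩ := hev
  unfold neel
  rcases nxt_val_cases j with ⟨a1, a2⟩ | ⟨a1, a2⟩
  · rcases Nat.mod_two_eq_zero_or_one j.val with h | h
    · left
      have h2 : ¬ ((nxt j).val % 2 = 0) := by omega
      simp [h, h2]
    · right
      have h1 : ¬ (j.val % 2 = 0) := by omega
      have h2 : (nxt j).val % 2 = 0 := by omega
      simp [h1, h2]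
  · right
    have h1 : ¬ (j.val % 2 = 0) := by omega
    have h2 : (nxt j).val % 2 = 0 := by omega
    simp [h1, h2]

end Vale.Agent.Lib.P348
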