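import Vale.Agent.Lib.P348.Defs

namespace Vale.Agent.Lib.P348

open Matrix

variable {L : ℕ}

/-- entries of a product of operators on two distinct sites -/
theorem site_mul_site_apply {a b : Fin L} (hab : a ≠ b) (A B : Matrix (Fin 3) (Fin 3) ℂ)
    (σ τ : Cfg L) :
    (site a A * site b B) σ τ =
      if ∀ k, k ≠ a → k ≠ b → σ k = τ k then A (σ a) (τ a) * B (σ b) (τ b) else 0 := by
  rw [Matrix.mul_apply, Finset.sum_eq_single (Function.update σ a (τ a))]
  · have h1 : ∀ k, k ≠ a → σ k = Function.update σ a (τ a) k := by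
      intro k hk
      rw [Function.update_of_ne hk]
    have h2 : (∀ k, k ≠ b → Function.update σ a (τ a) k = τ k) ↔
        ∀ k, k ≠ a → k ≠ b → σ k = τ k := by
      constructor
      · intro h k hka hkb
        have := h k hkb
        rwa [Function.update_of_ne hka] at this
      · intro h k hkb
        by_cases hka : k = a
        · subst hka
          rw [Function.update_self]
        · rw [Function.update_of_ne hka]
          exact h k hka hkb
    unfold site
    rw [if_pos h1, Function.update_self, Function.update_of_ne (Ne.symm hab)]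
    by_cases h : ∀ k, k ≠ a → k ≠ b → σ k = τ k
    · rw [if_pos h, if_pos (h2.2 h)]
    · rw [if_neg h, if_neg (fun h' => h (h2.1 h')), mul_zero]
  · intro ρ _ hρ
    unfold site
    by_cases h1 : ∀ k, k ≠ a → σ k = ρ k
    · by_cases h2 : ∀ k, k ≠ b → ρ k = τ k
      · exfalso
        apply hρ
        funext k
        by_cases hka : k = a
        · subst hka
          rw [Function.update_self]
          exact h2 k hab
        · rw [Function.update_of_ne hka]
          exact (h1 k hka).symm
      · rw [if_neg h2, mul_zero]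
    · rw [if_neg h1, zero_mul]
  · intro h
    exact absurd (Finset.mem_univ _) h

theorem site_comm {a b : Fin L} (hab : a ≠ b) (A B : Matrix (Fin 3) (Fin 3) ℂ) :
    site a A * site b B = site b B * site a A := by
  ext σ τ
  rw [site_mul_site_apply hab, site_mul_site_apply (Ne.symm hab)]
  have h : (∀ k, k ≠ a → k ≠ b → σ k = τ k) ↔ ∀ k, k ≠ b → k ≠ a → σ k = τ k :=
    ⟨fun h k h1 h2 => h k h2 h1, fun h k h1 h2 => h k h2 h1⟩
  by_cases h1 : ∀ k, k ≠ a → k ≠ b → σ k = τ k
  · rw [if_pos h1, if_pos (h.1 h1), mul_comm]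
  · rw [if_neg h1, if_neg (fun h' => h1 (h.2 h'))]

theorem site_mul_site_diag {a b : Fin L} (hab : a ≠ b) (A B : Matrix (Fin 3) (Fin 3) ℂ)
    (σ : Cfg L) :
    (site a A * site b B) σ σ = A (σ a) (σ a) * B (σ b) (σ b) := by
  rw [site_mul_site_apply hab, if_pos (fun _ _ _ => rfl)]

end Vale.Agent.Lib.P348
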