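import Vale.Agent.Lib.P348.Spin

namespace Vale.Agent.Lib.P348

open Matrix

private theorem S0 : S 0 = Sx := rfl
private theorem S1 : S 1 = Sy := rfl
private theorem S2 : S 2 = Sz := rfl

private theorem comm_yx : Sy * Sx - Sx * Sy = (-Complex.I) • Sz := by
  rw [neg_smul, ← comm_xy, neg_sub]

private theorem comm_zy : Sz * Sy - Sy * Sz = (-Complex.I) • Sx := by
  rw [neg_smul, ← comm_yz, neg_sub]

private theorem comm_xz : Sx * Sz - Sz * Sx = (-Complex.I) • Sy := by
  rw [neg_smul, ← comm_zx, neg_sub]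

theorem S_herm (α : Fin 3) : (S α)ᴴ = S α := by
  fin_cases α
  · exact Sx_herm
  · exact Sy_herm
  · exact Sz_herm

theorem S_cube (α : Fin 3) : S α * S α * S α = S α := by
  fin_cases α
  · exact Sx_cube
  · exact Sy_cube
  · exact Sz_cube

/-- every commutator of two spin matrices is a scalar of modulus at most one (zero when the
axes agree) times a spin matrix -/
theorem comm_form (α β : Fin 3) : ∃ (c : ℂ) (γ : Fin 3),
    ‖c‖ ≤ (if α = β then 0 else 1) ∧ S β * S α - S α * S β = c • S γ := by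
  fin_cases α <;> fin_cases β
  · exact ⟨0, 0, by simp, by simp⟩
  · exact ⟨-Complex.I, 2, by simp, comm_yx⟩
  · exact ⟨Complex.I, 1, by simp, comm_zx⟩
  · exact ⟨Complex.I, 2, by simp, comm_xy⟩
  · exact ⟨0, 0, by simp, by simp⟩
  · exact ⟨-Complex.I, 0, by simp, comm_zy⟩
  · exact ⟨-Complex.I, 1, by simp, comm_xz⟩
  · exact ⟨Complex.I, 0, by simp, comm_yz⟩
  · exact ⟨0, 0, by simp, by simp⟩

private theorem II : Complex.I * Complex.I = -1 := Complex.I_mul_I

/-- the Casimir of the adjoint action -/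
theorem double_comm (β : Fin 3) :
    ∑ α : Fin 3, (S α * (S β * S α - S α * S β) - (S β * S α - S α * S β) * S α)
      = (-2 : ℂ) • S β := by
  rw [Fin.sum_univ_three, S0, S1, S2]
  fin_cases β
  · show Sx * (Sx * Sx - Sx * Sx) - (Sx * Sx - Sx * Sx) * Sx
      + (Sy * (Sx * Sy - Sy * Sx) - (Sx * Sy - Sy * Sx) * Sy)
      + (Sz * (Sx * Sz - Sz * Sx) - (Sx * Sz - Sz * Sx) * Sz) = (-2 : ℂ) • Sx
    rw [comm_xy, comm_xz, sub_self, mul_zero, zero_mul, sub_zero, zero_add,
      mul_smul_comm, smul_mul_assoc, mul_smul_comm, smul_mul_assoc, ← smul_sub, ← smul_sub,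
      comm_yz, comm_zy, smul_smul, smul_smul, ← add_smul]
    congr 1
    rw [neg_mul_neg, II]; norm_num
  · show Sx * (Sy * Sx - Sx * Sy) - (Sy * Sx - Sx * Sy) * Sx
      + (Sy * (Sy * Sy - Sy * Sy) - (Sy * Sy - Sy * Sy) * Sy)
      + (Sz * (Sy * Sz - Sz * Sy) - (Sy * Sz - Sz * Sy) * Sz) = (-2 : ℂ) • Sy
    rw [comm_yx, comm_yz, sub_self, mul_zero, zero_mul, sub_zero, add_zero,
      mul_smul_comm, smul_mul_assoc, mul_smul_comm, smul_mul_assoc, ← smul_sub, ← smul_sub,
      comm_xz, comm_zx, smul_smul, smul_smul, ← add_smul]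
    congr 1
    rw [neg_mul_neg, II]; norm_num
  · show Sx * (Sz * Sx - Sx * Sz) - (Sz * Sx - Sx * Sz) * Sx
      + (Sy * (Sz * Sy - Sy * Sz) - (Sz * Sy - Sy * Sz) * Sy)
      + (Sz * (Sz * Sz - Sz * Sz) - (Sz * Sz - Sz * Sz) * Sz) = (-2 : ℂ) • Sz
    rw [comm_zx, comm_zy, sub_self, mul_zero, zero_mul, sub_zero, add_zero,
      mul_smul_comm, smul_mul_assoc, mul_smul_comm, smul_mul_assoc, ← smul_sub, ← smul_sub,
      comm_xy, comm_yx, smul_smul, smul_smul, ← add_smul]
    congr 1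
    rw [neg_mul_neg, II]; norm_num

theorem S_diag (α : Fin 3) (s : Fin 3) :
    S α s s = if α = 2 then (if s = 0 then 1 else if s = 1 then 0 else -1) else 0 := by
  fin_cases α <;> fin_cases s <;> simp [S, Sx, Sy, Sz]

end Vale.Agent.Lib.P348
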