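import Vale.Agent.Lib.P348.Site
import Vale.Agent.Lib.P348.SiteComm
import Vale.Agent.Lib.P348.Spin2
import Vale.Agent.Lib.P348.Norm
import Vale.Agent.Lib.P348.Ring

namespace Vale.Agent.Lib.P348

open Matrix

variable {L : ℕ}

/-- commutator of a two-site product with an operator on the first site -/
theorem comm_first {a b : Fin L} (hab : a ≠ b) (M N X : Matrix (Fin 3) (Fin 3) ℂ) :
    (site a M * site b N) * site a X - site a X * (site a M * site b N)
      = site a (M * X - X * M) * site b N := by
  rw [site_sub, site_mul, site_mul, sub_mul, Matrix.mul_assoc, site_comm hab.symm N X,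
    ← Matrix.mul_assoc, ← Matrix.mul_assoc]

/-- commutator of a two-site product with an operator on the second site -/
theorem comm_second {a b : Fin L} (hab : a ≠ b) (M N X : Matrix (Fin 3) (Fin 3) ℂ) :
    (site a M * site b N) * site b X - site b X * (site a M * site b N)
      = site a M * site b (N * X - X * N) := by
  rw [site_sub, site_mul, site_mul, mul_sub, ← Matrix.mul_assoc (site b X), site_comm hab.symm X M,
    Matrix.mul_assoc, Matrix.mul_assoc]

/-- commutator of a two-site product with an operator on a third site -/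
theorem comm_third {a b c : Fin L} (hca : c ≠ a) (hcb : c ≠ b) (M N X : Matrix (Fin 3) (Fin 3) ℂ) :
    (site a M * site b N) * site c X - site c X * (site a M * site b N) = 0 := by
  rw [← Matrix.mul_assoc (site c X), site_comm hca X M, Matrix.mul_assoc, Matrix.mul_assoc,
    site_comm hcb X N, sub_self]

theorem bond_comm_first {a b : Fin L} (hab : a ≠ b) (X : Matrix (Fin 3) (Fin 3) ℂ) :
    bond a b * site a X - site a X * bond a b
      = ∑ β : Fin 3, site a (S β * X - X * S β) * site b (S β) := by
  simp only [bond, Finset.sum_mul, Finset.mul_sum, ← Finset.sum_sub_distrib, comm_first hab]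

theorem bond_comm_second {a b : Fin L} (hab : a ≠ b) (X : Matrix (Fin 3) (Fin 3) ℂ) :
    bond a b * site b X - site b X * bond a b
      = ∑ β : Fin 3, site a (S β) * site b (S β * X - X * S β) := by
  simp only [bond, Finset.sum_mul, Finset.mul_sum, ← Finset.sum_sub_distrib, comm_second hab]

theorem bond_comm_third {a b c : Fin L} (hca : c ≠ a) (hcb : c ≠ b)
    (X : Matrix (Fin 3) (Fin 3) ℂ) :
    bond a b * site c X - site c X * bond a b = 0 := by
  simp only [bond, Finset.sum_mul, Finset.mul_sum, ← Finset.sum_sub_distrib,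
    comm_third hca hcb, Finset.sum_const_zero]

/-- the double commutator `[A, [H, A]]` -/
def dc {n : Type*} [Fintype n] (H A : Matrix n n ℂ) : Matrix n n ℂ :=
  A * (H * A - A * H) - (H * A - A * H) * A

theorem dc_sum {n ι : Type*} [Fintype n] (s : Finset ι) (H : ι → Matrix n n ℂ)
    (A : Matrix n n ℂ) : dc (∑ k ∈ s, H k) A = ∑ k ∈ s, dc (H k) A := by
  simp only [dc, Finset.sum_mul, Finset.mul_sum, ← Finset.sum_sub_distrib]

theorem site_sum3 (a : Fin L) (M : Fin 3 → Matrix (Fin 3) (Fin 3) ℂ) :
    site a (∑ α, M α) = ∑ α, site a (M α) := by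
  simp only [Fin.sum_univ_three, site_add]

theorem dc_bond_first {a b : Fin L} (hab : a ≠ b) :
    ∑ α : Fin 3, dc (bond a b) (site a (S α)) = (-2 : ℂ) • bond a b := by
  have h1 : ∀ α : Fin 3, dc (bond a b) (site a (S α))
      = ∑ β : Fin 3, site a (S α * (S β * S α - S α * S β) - (S β * S α - S α * S β) * S α)
          * site b (S β) := by
    intro α
    rw [dc, bond_comm_first hab, Finset.mul_sum, Finset.sum_mul, ← Finset.sum_sub_distrib]
    refine Finset.sum_congr rfl fun β _ => ?_
    rw [← neg_sub, comm_first hab, ← neg_mul, site_sub a (S α * _), site_sub a (_ * S α),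
      neg_sub]
  simp only [h1]
  rw [Finset.sum_comm]
  simp only [← Finset.sum_mul, ← site_sum3, double_comm, site_smul, bond, Finset.smul_sum,
    Matrix.smul_mul]

theorem dc_bond_second {a b : Fin L} (hab : a ≠ b) :
    ∑ α : Fin 3, dc (bond a b) (site b (S α)) = (-2 : ℂ) • bond a b := by
  have h1 : ∀ α : Fin 3, dc (bond a b) (site b (S α))
      = ∑ β : Fin 3, site a (S β)
          * site b (S α * (S β * S α - S α * S β) - (S β * S α - S α * S β) * S α) := by
    intro α
    rw [dc, bond_comm_second hab, Finset.mul_sum, Finset.sum_mul, ← Finset.sum_sub_distrib]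
    refine Finset.sum_congr rfl fun β _ => ?_
    rw [← neg_sub, comm_second hab, ← mul_neg, site_sub b (S α * _), site_sub b (_ * S α),
      neg_sub]
  simp only [h1]
  rw [Finset.sum_comm]
  simp only [← Finset.mul_sum, ← site_sum3, double_comm, site_smul, bond, Finset.smul_sum,
    Matrix.mul_smul]

theorem dc_bond_third {a b c : Fin L} (hca : c ≠ a) (hcb : c ≠ b)
    (X : Matrix (Fin 3) (Fin 3) ℂ) : dc (bond a b) (site c X) = 0 := by
  rw [dc, bond_comm_third hca hcb]; simp

/-- the sum rule: `∑_{j, α} [S^α_j, [H, S^α_j]] = -4 H` -/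
theorem sum_rule (hL : 2 ≤ L) :
    ∑ p : Fin L × Fin 3, dc (ham L) (site p.1 (S p.2)) = (-4 : ℂ) • ham L := by
  rw [Fintype.sum_prod_type]
  simp only [ham, dc_sum]
  have h2 : ∀ k : Fin L, ∑ j : Fin L, ∑ α : Fin 3, dc (bond k (nxt k)) (site j (S α))
      = (-4 : ℂ) • bond k (nxt k) := by
    intro k
    have hk : k ≠ nxt k := (nxt_ne hL k).symm
    rw [Finset.sum_eq_add k (nxt k) hk, dc_bond_first hk, dc_bond_second hk, ← add_smul]
    · norm_num
    · intro c _ hc
      exact Finset.sum_eq_zero fun α _ => dc_bond_third hc.1 hc.2 _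
    · intro h; exact absurd (Finset.mem_univ _) h
    · intro h; exact absurd (Finset.mem_univ _) h
  calc ∑ j : Fin L, ∑ α : Fin 3, ∑ k : Fin L, dc (bond k (nxt k)) (site j (S α))
      = ∑ k : Fin L, ∑ j : Fin L, ∑ α : Fin 3, dc (bond k (nxt k)) (site j (S α)) := by
        simp only [Finset.sum_comm (s := (Finset.univ : Finset (Fin 3)))]
        rw [Finset.sum_comm]
    _ = (-4 : ℂ) • ∑ k : Fin L, bond k (nxt k) := by
        simp only [h2, Finset.smul_sum]

end Vale.Agent.Lib.P348
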