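import Vale.Agent.Lib.P348.Algebra

namespace Vale.Agent.Lib.P348

open Matrix

open scoped Matrix.Norms.L2Operator

variable {L : ℕ}

theorem site_S_herm (j : Fin L) (α : Fin 3) : (site j (S α)).IsHermitian := by
  rw [Matrix.IsHermitian, site_conjTranspose, S_herm]

theorem norm_site_S (j : Fin L) (α : Fin 3) : ‖site j (S α)‖ ≤ 1 := by
  apply norm_le_one_of_cube _ (site_S_herm j α)
  rw [← site_mul, ← site_mul, S_cube]

theorem bond_herm {a b : Fin L} (hab : a ≠ b) : (bond a b).IsHermitian := by
  rw [Matrix.IsHermitian, bond, Matrix.conjTranspose_sum]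
  refine Finset.sum_congr rfl fun α _ => ?_
  rw [Matrix.conjTranspose_mul, (site_S_herm a α).eq, (site_S_herm b α).eq, site_comm hab.symm]

theorem ham_herm (hL : 2 ≤ L) : (ham L).IsHermitian := by
  rw [Matrix.IsHermitian, ham, Matrix.conjTranspose_sum]
  exact Finset.sum_congr rfl fun k _ => (bond_herm (nxt_ne hL k).symm).eq

theorem norm_site_comm (a : Fin L) (α β : Fin 3) :
    ‖site a (S β * S α - S α * S β)‖ ≤ (if α = β then 0 else 1) := by
  obtain ⟨c, γ, hc, h⟩ := comm_form α β
  rw [h, site_smul, norm_smul]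
  calc ‖c‖ * ‖site a (S γ)‖ ≤ ‖c‖ * 1 :=
        mul_le_mul_of_nonneg_left (norm_site_S a γ) (norm_nonneg _)
    _ ≤ _ := by rw [mul_one]; exact hc

theorem sum_ite_ne (α : Fin 3) : ∑ β : Fin 3, (if α = β then (0 : ℝ) else 1) = 2 := by
  fin_cases α <;> simp [Fin.sum_univ_three] <;> norm_num

theorem norm_bond_comm_first {a b : Fin L} (hab : a ≠ b) (α : Fin 3) :
    ‖bond a b * site a (S α) - site a (S α) * bond a b‖ ≤ 2 := by
  rw [bond_comm_first hab, ← sum_ite_ne α]
  refine (norm_sum_le _ _).trans (Finset.sum_le_sum fun β _ => ?_)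
  calc ‖site a (S β * S α - S α * S β) * site b (S β)‖
      ≤ ‖site a (S β * S α - S α * S β)‖ * ‖site b (S β)‖ := norm_mul_le _ _
    _ ≤ (if α = β then 0 else 1) * 1 :=
        mul_le_mul (norm_site_comm a α β) (norm_site_S b β) (norm_nonneg _)
          (by split_ifs <;> norm_num)
    _ = _ := mul_one _

theorem norm_bond_comm_second {a b : Fin L} (hab : a ≠ b) (α : Fin 3) :
    ‖bond a b * site b (S α) - site b (S α) * bond a b‖ ≤ 2 := by
  rw [bond_comm_second hab, ← sum_ite_ne α]
  refine (norm_sum_le _ _).trans (Finset.sum_le_sum fun β _ => ?_)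
  calc ‖site a (S β) * site b (S β * S α - S α * S β)‖
      ≤ ‖site a (S β)‖ * ‖site b (S β * S α - S α * S β)‖ := norm_mul_le _ _
    _ ≤ 1 * (if α = β then 0 else 1) :=
        mul_le_mul (norm_site_S a β) (norm_site_comm b α β) (norm_nonneg _) (by norm_num)
    _ = _ := one_mul _

theorem norm_ham_comm (hL : 2 ≤ L) (j : Fin L) (α : Fin 3) :
    ‖ham L * site j (S α) - site j (S α) * ham L‖ ≤ 4 := by
  have h1 : ham L * site j (S α) - site j (S α) * ham L
      = ∑ k : Fin L, (bond k (nxt k) * site j (S α) - site j (S α) * bond k (nxt k)) := by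
    simp only [ham, Finset.sum_mul, Finset.mul_sum, ← Finset.sum_sub_distrib]
  have h2 : ∀ k : Fin L, ‖bond k (nxt k) * site j (S α) - site j (S α) * bond k (nxt k)‖
      ≤ (if k = j then (2 : ℝ) else 0) + (if nxt k = j then (2 : ℝ) else 0) := by
    intro k
    have hk : k ≠ nxt k := (nxt_ne hL k).symm
    by_cases h : k = j
    · subst h
      have := norm_bond_comm_first hk α
      rw [if_pos rfl]
      split_ifs <;> linarith
    · by_cases h' : nxt k = j
      · subst h'
        have := norm_bond_comm_second hk α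
        rw [if_pos rfl]
        split_ifs <;> linarith
      · rw [bond_comm_third (Ne.symm h) (Ne.symm h'), if_neg h, if_neg h']
        simp
  have h3 : ∑ k : Fin L, (if nxt k = j then (2 : ℝ) else 0) = 2 := by
    have hb : Function.Bijective (nxt : Fin L → Fin L) :=
      Finite.injective_iff_bijective.mp nxt_injective
    rw [hb.sum_comp (fun m => if m = j then (2 : ℝ) else 0)]
    simp
  rw [h1]
  calc _ ≤ ∑ k : Fin L, ‖bond k (nxt k) * site j (S α) - site j (S α) * bond k (nxt k)‖ :=
        norm_sum_le _ _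
    _ ≤ ∑ k : Fin L, ((if k = j then (2 : ℝ) else 0) + (if nxt k = j then (2 : ℝ) else 0)) :=
        Finset.sum_le_sum fun k _ => h2 k
    _ = 4 := by
        rw [Finset.sum_add_distrib, h3]
        simp
        norm_num

/-- the diagonal entry of the Hamiltonian at the Neel configuration is `-L` -/
theorem ham_neel (hL : 2 ≤ L) (hev : Even L) : ham L (neel L) (neel L) = -(L : ℂ) := by
  have h1 : ∀ k : Fin L, bond k (nxt k) (neel L) (neel L) = -1 := by
    intro k
    have hk : k ≠ nxt k := (nxt_ne hL k).symm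
    rw [bond, Matrix.sum_apply]
    simp only [site_mul_site_diag hk, S_diag, Fin.sum_univ_three]
    rcases neel_nxt hL hev k with ⟨h, h'⟩ | ⟨h, h'⟩ <;> rw [h, h'] <;> simp
  rw [ham, Matrix.sum_apply]
  simp [h1]

end Vale.Agent.Lib.P348
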