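import Vale.Agent.Lib.P348.Bounds

namespace Vale.Agent.Lib.P348

open Matrix

variable {L : ℕ}

private theorem sq_expect {n : Type*} [Fintype n] (A : Matrix n n ℂ) (hA : A.IsHermitian)
    (ψ : n → ℂ) : star (A *ᵥ ψ) ⬝ᵥ (A *ᵥ ψ) = star ψ ⬝ᵥ ((A * A) *ᵥ ψ) := by
  rw [← Matrix.mulVec_mulVec, Matrix.dotProduct_mulVec (star ψ), Matrix.star_mulVec, hA.eq]

open scoped ComplexOrder in
private theorem nrm_nonneg {n : Type*} [Fintype n] (v : n → ℂ) : 0 ≤ (star v ⬝ᵥ v).re := by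
  have h : (0 : ℂ) ≤ star v ⬝ᵥ v := dotProduct_star_self_nonneg v
  exact (Complex.le_def.1 h).1

private theorem expect_sum {n ι : Type*} [Fintype n] (s : Finset ι) (M : ι → Matrix n n ℂ)
    (ψ : n → ℂ) :
    (star ψ ⬝ᵥ ((∑ i ∈ s, M i) *ᵥ ψ)).re = ∑ i ∈ s, (star ψ ⬝ᵥ (M i *ᵥ ψ)).re := by
  rw [Matrix.sum_mulVec, dotProduct_sum, Complex.re_sum]

private theorem casimir_site (j : Fin L) :
    ∑ α : Fin 3, site j (S α) * site j (S α) = (2 : ℂ) • (1 : Matrix (Cfg L) (Cfg L) ℂ) := by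
  rw [Fin.sum_univ_three]
  show site j Sx * site j Sx + site j Sy * site j Sy + site j Sz * site j Sz = _
  rw [← site_mul, ← site_mul, ← site_mul, ← site_add, ← site_add, casimir, site_smul, site_one]

private theorem expect_smul_one {n : Type*} [Fintype n] [DecidableEq n] (c : ℝ) (ψ : n → ℂ) :
    (star ψ ⬝ᵥ (((c : ℂ) • (1 : Matrix n n ℂ)) *ᵥ ψ)).re = c * (star ψ ⬝ᵥ ψ).re := by
  rw [Matrix.smul_mulVec, Matrix.one_mulVec, dotProduct_smul, smul_eq_mul, Complex.re_ofReal_mul]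

/-- `∑_α ‖S^α_j ψ‖² = 2 ‖ψ‖²` -/
theorem sum_sq_site (j : Fin L) (ψ : Cfg L → ℂ) :
    ∑ α : Fin 3, (star (site j (S α) *ᵥ ψ) ⬝ᵥ (site j (S α) *ᵥ ψ)).re
      = 2 * (star ψ ⬝ᵥ ψ).re := by
  have h1 : ∀ α : Fin 3, (star (site j (S α) *ᵥ ψ) ⬝ᵥ (site j (S α) *ᵥ ψ)).re
      = (star ψ ⬝ᵥ ((site j (S α) * site j (S α)) *ᵥ ψ)).re := fun α => by
    rw [sq_expect _ (site_S_herm j α)]
  rw [Finset.sum_congr rfl (fun α _ => h1 α), ← expect_sum, casimir_site]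
  have := expect_smul_one (2 : ℝ) ψ
  simpa using this

/-- `S_a · S_b ≥ -2`, from `(S_a + S_b)² ≥ 0` -/
theorem bond_lower {a b : Fin L} (hab : a ≠ b) (ψ : Cfg L → ℂ) :
    -2 * (star ψ ⬝ᵥ ψ).re ≤ (star ψ ⬝ᵥ (bond a b *ᵥ ψ)).re := by
  have hB : ∀ α : Fin 3, (site a (S α) + site b (S α)).IsHermitian := fun α =>
    (site_S_herm a α).add (site_S_herm b α)
  have h0 : 0 ≤ ∑ α : Fin 3, (star ((site a (S α) + site b (S α)) *ᵥ ψ) ⬝ᵥ
      ((site a (S α) + site b (S α)) *ᵥ ψ)).re :=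
    Finset.sum_nonneg fun α _ => nrm_nonneg _
  have h1 : ∀ α : Fin 3, (star ((site a (S α) + site b (S α)) *ᵥ ψ) ⬝ᵥ
      ((site a (S α) + site b (S α)) *ᵥ ψ)).re
      = (star ψ ⬝ᵥ (((site a (S α) + site b (S α)) * (site a (S α) + site b (S α))) *ᵥ ψ)).re :=
    fun α => by rw [sq_expect _ (hB α)]
  rw [Finset.sum_congr rfl (fun α _ => h1 α), ← expect_sum] at h0
  have h2 : ∑ α : Fin 3, (site a (S α) + site b (S α)) * (site a (S α) + site b (S α))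
      = ((2 : ℝ) : ℂ) • (1 : Matrix (Cfg L) (Cfg L) ℂ) + bond a b + bond a b
        + ((2 : ℝ) : ℂ) • (1 : Matrix (Cfg L) (Cfg L) ℂ) := by
    have h3 : ∀ α : Fin 3, (site a (S α) + site b (S α)) * (site a (S α) + site b (S α))
        = site a (S α) * site a (S α) + site a (S α) * site b (S α)
          + site a (S α) * site b (S α) + site b (S α) * site b (S α) := fun α => by
      rw [add_mul, mul_add, mul_add, site_comm hab.symm (S α) (S α)]
      abel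
    rw [Finset.sum_congr rfl (fun α _ => h3 α), Finset.sum_add_distrib, Finset.sum_add_distrib,
      Finset.sum_add_distrib, casimir_site, casimir_site]
    simp only [bond, Complex.ofReal_ofNat]
  rw [h2, Matrix.add_mulVec, Matrix.add_mulVec, Matrix.add_mulVec, dotProduct_add,
    dotProduct_add, dotProduct_add, Complex.add_re, Complex.add_re, Complex.add_re,
    expect_smul_one] at h0
  linarith

theorem ham_lower (hL : 2 ≤ L) (ψ : Cfg L → ℂ) :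
    -2 * (L : ℝ) * (star ψ ⬝ᵥ ψ).re ≤ (star ψ ⬝ᵥ (ham L *ᵥ ψ)).re := by
  unfold ham
  rw [expect_sum]
  calc -2 * (L : ℝ) * (star ψ ⬝ᵥ ψ).re
      = ∑ _k : Fin L, (-2 * (star ψ ⬝ᵥ ψ).re) := by
        rw [Finset.sum_const, Finset.card_univ, Fintype.card_fin, nsmul_eq_mul]
        ring
    _ ≤ ∑ k : Fin L, (star ψ ⬝ᵥ (bond k (nxt k) *ᵥ ψ)).re :=
        Finset.sum_le_sum fun k _ => bond_lower (nxt_ne hL k).symm ψ

end Vale.Agent.Lib.P348
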