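import Vale.Agent.Lib.P348.Defs2

namespace Vale.Agent.Lib.P348

variable {L : ℕ}

theorem hop_symm (σ τ : Cfg L) (h : Hop σ τ) : Hop τ σ := by
  obtain ⟨k, h1, h2⟩ := h
  refine ⟨k, fun j hj hj' => (h1 j hj hj').symm, ?_⟩
  unfold Move at h2 ⊢
  exact h2.symm

/-- sums of two functions which differ at two points only -/
theorem conn_two_pt (a b : Fin L → ℕ) (p q : Fin L) (hpq : p ≠ q)
    (h : ∀ j, j ≠ p → j ≠ q → a j = b j) :
    ∑ j, a j + b p + b q = ∑ j, b j + a p + a q := by
  have a1 := Finset.add_sum_erase Finset.univ a (Finset.mem_univ p)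
  have a2 := Finset.add_sum_erase (Finset.univ.erase p) a
    (Finset.mem_erase.mpr ⟨hpq.symm, Finset.mem_univ q⟩)
  have b1 := Finset.add_sum_erase Finset.univ b (Finset.mem_univ p)
  have b2 := Finset.add_sum_erase (Finset.univ.erase p) b
    (Finset.mem_erase.mpr ⟨hpq.symm, Finset.mem_univ q⟩)
  have hr : ∑ x ∈ (Finset.univ.erase p).erase q, a x = ∑ x ∈ (Finset.univ.erase p).erase q, b x := by
    refine Finset.sum_congr rfl (fun x hx => ?_)
    have hx1 := Finset.mem_erase.mp hx
    have hx2 := Finset.mem_erase.mp hx1.2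
    exact h x hx2.1 hx1.1
  omega

/-- packed configurations: all particles are as far to the left as possible -/
def Packed (σ : Cfg L) : Prop := ∀ i j : Fin L, i.val + 1 = j.val → σ i = 2 ∨ σ j = 0

/-- the potential -/
def pot (σ : Cfg L) : ℕ := ∑ j : Fin L, j.val * (σ j).val

theorem conn_left_hop (σ : Cfg L) (i j : Fin L) (hij : i.val + 1 = j.val) (hi : σ i ≠ 2)
    (hj : σ j ≠ 0) : ∃ τ : Cfg L, Hop σ τ ∧ num τ = num σ ∧ pot τ < pot σ := by
  have hi2 : (σ i).val < 2 := by
    have h3 := (σ i).isLt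
    have : (σ i).val ≠ 2 := fun h => hi (Fin.ext h)
    omega
  have hj0 : 0 < (σ j).val := by
    have : (σ j).val ≠ 0 := fun h => hj (Fin.ext h)
    omega
  have hj3 := (σ j).isLt
  have hne : i ≠ j := by
    intro h
    rw [h] at hij
    omega
  set s' : Fin 3 := ⟨(σ i).val + 1, by omega⟩ with hs'
  set t' : Fin 3 := ⟨(σ j).val - 1, by omega⟩ with ht'
  set τ : Cfg L := fun x => if x = i then s' else if x = j then t' else σ x with hτ
  have τi : τ i = s' := by simp [hτ]
  have τj : τ j = t' := by simp [hτ, hne.symm]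
  have τx : ∀ x, x ≠ i → x ≠ j → τ x = σ x := by
    intro x h1 h2
    simp [hτ, h1, h2]
  have hnxt : nxt i = j := by
    apply Fin.ext
    simp only [nxt]
    rw [hij]
    exact Nat.mod_eq_of_lt j.isLt
  refine ⟨τ, ⟨i, ?_, ?_⟩, ?_, ?_⟩
  · intro x h1 h2
    rw [hnxt] at h2
    exact (τx x h1 h2).symm
  · rw [hnxt, τi, τj]
    left
    constructor
    · simp [hs']
    · simp only [ht']
      omega
  · have h := conn_two_pt (fun x => (σ x).val) (fun x => (τ x).val) i j hne
      (fun x h1 h2 => by simp only [τx x h1 h2])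
    simp only [τi, τj, hs', ht'] at h
    unfold num
    omega
  · have h := conn_two_pt (fun x => x.val * (σ x).val) (fun x => x.val * (τ x).val) i j hne
      (fun x h1 h2 => by simp only [τx x h1 h2])
    simp only [τi, τj, hs', ht'] at h
    have e1 : i.val * ((σ i).val + 1) = i.val * (σ i).val + i.val := by ring
    have e2 : j.val * (σ j).val = j.val * ((σ j).val - 1) + j.val := by
      obtain ⟨m, hm⟩ : ∃ m, (σ j).val = m + 1 := ⟨(σ j).val - 1, by omega⟩
      rw [hm]
      simp only [Nat.add_sub_cancel]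
      ring
    unfold pot
    omega

theorem conn_to_packed : ∀ (n : ℕ) (σ : Cfg L), pot σ = n →
    ∃ π : Cfg L, Packed π ∧ Relation.ReflTransGen Hop σ π ∧ num π = num σ := by
  intro n
  induction n using Nat.strong_induction_on with
  | _ n ih =>
  intro σ hσ
  by_cases hp : Packed σ
  · exact ⟨σ, hp, Relation.ReflTransGen.refl, rfl⟩
  · unfold Packed at hp
    simp only [not_forall, not_or] at hp
    obtain ⟨i, j, hij, hi, hj⟩ := hp
    obtain ⟨τ, hhop, hnum, hpot⟩ := conn_left_hop σ i j hij hi hj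
    obtain ⟨π, h1, h2, h3⟩ := ih (pot τ) (hσ ▸ hpot) τ rfl
    exact ⟨π, h1, Relation.ReflTransGen.head hhop h2, h3.trans hnum⟩

theorem conn_tail_zero (π : Cfg L) (hp : Packed π) (j0 : Fin L) (h0 : π j0 ≠ 2) :
    ∀ (n : ℕ) (j : Fin L), j.val = j0.val + 1 + n → π j = 0 := by
  intro n
  induction n with
  | zero =>
    intro j hj
    rcases hp j0 j (by omega) with h | h
    · exact absurd h h0
    · exact h
  | succ n ih =>
    intro j hj
    have hlt : j.val - 1 < L := lt_of_le_of_lt (Nat.sub_le _ _) j.isLt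
    have hi := ih ⟨j.val - 1, hlt⟩ (by simp only; omega)
    rcases hp ⟨j.val - 1, hlt⟩ j (by simp only; omega) with h | h
    · rw [hi] at h
      exact absurd h (by decide)
    · exact h

theorem conn_num_lt (π π' : Cfg L) (hp : Packed π) (j0 : Fin L)
    (hbefore : ∀ j : Fin L, j.val < j0.val → π j = π' j) (hlt : (π j0).val < (π' j0).val) :
    num π < num π' := by
  have h0 : π j0 ≠ 2 := by
    intro h
    rw [h] at hlt
    have := (π' j0).isLt
    simp at hlt
    omega
  unfold num
  refine Finset.sum_lt_sum (fun j _ => ?_) ⟨j0, Finset.mem_univ _, hlt⟩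
  rcases lt_trichotomy j.val j0.val with h | h | h
  · rw [hbefore j h]
  · rw [Fin.ext h]
    exact hlt.le
  · rw [conn_tail_zero π hp j0 h0 (j.val - j0.val - 1) j (by omega)]
    simp

theorem conn_packed_unique (π π' : Cfg L) (hp : Packed π) (hp' : Packed π')
    (h : num π = num π') : π = π' := by
  by_contra hne
  have hex : ∃ n : ℕ, ∃ j : Fin L, j.val = n ∧ π j ≠ π' j := by
    by_contra hno
    apply hne
    funext j
    by_contra hj
    exact hno ⟨j.val, j, rfl, hj⟩
  classical
  obtain ⟨j0, hj0, hdiff⟩ := Nat.find_spec hex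
  have hbefore : ∀ j : Fin L, j.val < j0.val → π j = π' j := by
    intro j hj
    by_contra hjne
    exact Nat.find_min hex (hj0 ▸ hj) ⟨j, rfl, hjne⟩
  have hv : (π j0).val ≠ (π' j0).val := fun hv => hdiff (Fin.ext hv)
  rcases lt_or_gt_of_ne hv with hlt | hlt
  · have := conn_num_lt π π' hp j0 hbefore hlt
    omega
  · have := conn_num_lt π' π hp' j0 (fun j hj => (hbefore j hj).symm) hlt
    omega

/-- configurations with the same `num` are connected by exchange moves -/
theorem hop_conn (σ τ : Cfg L) (h : num σ = num τ) : Relation.ReflTransGen Hop σ τ := by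
  obtain ⟨π, hp, hc, hn⟩ := conn_to_packed (pot σ) σ rfl
  obtain ⟨π', hp', hc', hn'⟩ := conn_to_packed (pot τ) τ rfl
  have heq : π = π' := conn_packed_unique π π' hp hp' (by rw [hn, hn', h])
  have hrev : ∀ a b : Cfg L, Relation.ReflTransGen Hop a b → Relation.ReflTransGen Hop b a := by
    intro a b hab
    induction hab with
    | refl => exact Relation.ReflTransGen.refl
    | tail _ hbc ih => exact Relation.ReflTransGen.head (hop_symm _ _ hbc) ih
  have hback : Relation.ReflTransGen Hop π' τ := hrev _ _ hc'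
  rw [heq] at hc
  exact hc.trans hback

end Vale.Agent.Lib.P348
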