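import Mathlib

/-!
# P348: the spin-one Heisenberg ring, concrete matrix model

Configurations of a ring of `L` spin-one sites are functions `Fin L → Fin 3`
(the three values label the `S^z` eigenvalues `1, 0, -1`), and operators on
`(ℂ^3)^{⊗ L}` are complex matrices indexed by configurations.
-/

namespace Vale.Agent.Lib.P348

open Matrix

/-- Configurations of a ring of `L` spin-one sites. -/
abbrev Cfg (L : ℕ) : Type := Fin L → Fin 3

/-- The number `1 / sqrt 2`, as a complex number. -/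
noncomputable def r2 : ℂ := (((Real.sqrt 2)⁻¹ : ℝ) : ℂ)

/-- The spin-one matrix `S^x` in the standard `S^z` eigenbasis. -/
noncomputable def Sx : Matrix (Fin 3) (Fin 3) ℂ :=
  !![0, r2, 0; r2, 0, r2; 0, r2, 0]

/-- The spin-one matrix `S^y` in the standard `S^z` eigenbasis. -/
noncomputable def Sy : Matrix (Fin 3) (Fin 3) ℂ :=
  !![0, -(Complex.I * r2), 0; Complex.I * r2, 0, -(Complex.I * r2); 0, Complex.I * r2, 0]

/-- The spin-one matrix `S^z = diag(1, 0, -1)`. -/
def Sz : Matrix (Fin 3) (Fin 3) ℂ :=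
  !![1, 0, 0; 0, 0, 0; 0, 0, -1]

/-- The three spin matrices, indexed by the axis `0 = x`, `1 = y`, `2 = z`. -/
noncomputable def S : Fin 3 → Matrix (Fin 3) (Fin 3) ℂ := ![Sx, Sy, Sz]

/-- The operator acting as `A` on tensor factor `j` and as the identity on the others. -/
def site {L : ℕ} (j : Fin L) (A : Matrix (Fin 3) (Fin 3) ℂ) : Matrix (Cfg L) (Cfg L) ℂ :=
  fun σ τ => if ∀ k, k ≠ j → σ k = τ k then A (σ j) (τ j) else 0

/-- The next site on the periodic ring: `j + 1` modulo `L`. -/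
def nxt {L : ℕ} (j : Fin L) : Fin L :=
  ⟨(j.val + 1) % L, Nat.mod_lt _ (Nat.lt_of_le_of_lt (Nat.zero_le _) j.isLt)⟩

/-- The Heisenberg bond term `∑_α S^α_a S^α_b`. -/
noncomputable def bond {L : ℕ} (a b : Fin L) : Matrix (Cfg L) (Cfg L) ℂ :=
  ∑ α : Fin 3, site a (S α) * site b (S α)

/-- The periodic spin-one Heisenberg Hamiltonian `H_L = ∑_j ∑_α S^α_j S^α_{j+1}`. -/
noncomputable def ham (L : ℕ) : Matrix (Cfg L) (Cfg L) ℂ :=
  ∑ j : Fin L, bond j (nxt j)

/-- The real number `x` is an eigenvalue of the matrix `H`. -/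
def IsEig {n : Type*} [Fintype n] (H : Matrix n n ℂ) (x : ℝ) : Prop :=
  ∃ v : n → ℂ, v ≠ 0 ∧ H *ᵥ v = (x : ℂ) • v

end Vale.Agent.Lib.P348
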