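import Vale.Agent.Lib.P348.Defs

/-!
# P348: auxiliary definitions for the Marshall / Lieb-Mattis argument
-/

namespace Vale.Agent.Lib.P348

open Matrix

/-- `E0` is a lower bound of the quadratic form of `H`. -/
def LowerBd {n : Type*} [Fintype n] (H : Matrix n n ℂ) (E0 : ℝ) : Prop :=
  ∀ v : n → ℂ, E0 * (star v ⬝ᵥ v).re ≤ (star v ⬝ᵥ (H *ᵥ v)).re

/-- Sign structure: after the sign change `ε` all off-diagonal entries are real and `≤ 0`. -/
def Stoq {n : Type*} (H : Matrix n n ℂ) (ε : n → ℝ) : Prop :=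
  (∀ σ, ε σ = 1 ∨ ε σ = -1) ∧
  ∀ σ τ, σ ≠ τ → ∃ r : ℝ, 0 ≤ r ∧ H σ τ = ((-(ε σ * ε τ * r) : ℝ) : ℂ)

variable {L : ℕ}

/-- The number `∑_j σ_j` (with values `0,1,2` for `S^z = 1,0,-1`), i.e. `L` minus the total
magnetisation. -/
def num (σ : Cfg L) : ℕ := ∑ j, (σ j).val

/-- The Marshall sign: `-1` to the number of odd sites with `S^z = 0`. -/
def msign (σ : Cfg L) : ℝ := ∏ j : Fin L, if j.val % 2 = 1 ∧ σ j = 1 then (-1 : ℝ) else 1

/-- The two-site matrix of the bond term. -/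
noncomputable def Q (s t s' t' : Fin 3) : ℂ := ∑ α : Fin 3, S α s s' * S α t t'

/-- `(s,t) → (s',t')` is an exchange move: one unit of `S^z` goes from one site to the other. -/
def Move (s t s' t' : Fin 3) : Prop :=
  (s.val + 1 = s'.val ∧ t'.val + 1 = t.val) ∨ (s'.val + 1 = s.val ∧ t.val + 1 = t'.val)

instance (s t s' t' : Fin 3) : Decidable (Move s t s' t') := by unfold Move; infer_instance

/-- `τ` is obtained from `σ` by an exchange move on the bond `(k, nxt k)`. -/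
def Hop (σ τ : Cfg L) : Prop :=
  ∃ k : Fin L, (∀ j, j ≠ k → j ≠ nxt k → σ j = τ j) ∧ Move (σ k) (σ (nxt k)) (τ k) (τ (nxt k))

/-- The total operator `∑_j A_j`. -/
def tot (L : ℕ) (A : Matrix (Fin 3) (Fin 3) ℂ) : Matrix (Cfg L) (Cfg L) ℂ := ∑ j : Fin L, site j A

/-- The raising matrix `S^+ = S^x + i S^y`. -/
noncomputable def Sp : Matrix (Fin 3) (Fin 3) ℂ := Sx + Complex.I • Sy

/-- The lowering matrix `S^- = S^x - i S^y`. -/
noncomputable def Sm : Matrix (Fin 3) (Fin 3) ℂ := Sx - Complex.I • Sy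

/-- The spin flip `S^z → -S^z` on configurations. -/
def flip (σ : Cfg L) : Cfg L := fun j => Fin.rev (σ j)

end Vale.Agent.Lib.P348
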