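import Vale.Agent.Lib.P348.Defs2

namespace Vale.Agent.Lib.P348

variable {L : ℕ}

theorem sum_par (r : ℕ) (hr : r < 2) (m : ℕ) :
    ∑ i ∈ Finset.range (2 * m), (if i % 2 = r then 2 else 0) = 2 * m := by
  induction m with
  | zero => simp
  | succ m ih =>
    rw [Nat.mul_succ, Finset.sum_range_succ, Finset.sum_range_succ, ih]
    have h0 : (2 * m) % 2 = 0 := by omega
    have h1 : (2 * m + 1) % 2 = 1 := by omega
    rw [h0, h1]
    interval_cases r <;> simp

theorem exists_cfg_par (r : ℕ) (hr : r < 2) (hev : Even L) (N : ℕ) (hN : N ≤ L) :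
    ∃ σ : Cfg L, num σ = N ∧ ∀ j : Fin L, j.val % 2 ≠ r → σ j = 0 := by
  induction N with
  | zero => exact ⟨fun _ => 0, by simp [num], fun _ _ => rfl⟩
  | succ N ih =>
    obtain ⟨σ, hσ, hz⟩ := ih (by omega)
    have hex : ∃ j : Fin L, j.val % 2 = r ∧ (σ j).val < 2 := by
      by_contra hcon
      push Not at hcon
      have h1 : num σ = ∑ j : Fin L, (if j.val % 2 = r then 2 else 0) := by
        unfold num
        apply Finset.sum_congr rfl
        intro j _
        by_cases hj : j.val % 2 = r
        · rw [if_pos hj]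
          have := hcon j hj
          have := (σ j).isLt
          omega
        · rw [if_neg hj, hz j hj]
          rfl
      rw [Fin.sum_univ_eq_sum_range (fun i => if i % 2 = r then 2 else 0) L] at h1
      obtain ⟨m, hm⟩ := hev
      have hL : L = 2 * m := by omega
      have h2 : ∑ i ∈ Finset.range L, (if i % 2 = r then 2 else 0) = L := by
        rw [hL]
        exact sum_par r hr m
      rw [h2] at h1
      omega
    obtain ⟨j, hj, hlt⟩ := hex
    refine ⟨Function.update σ j ⟨(σ j).val + 1, by omega⟩, ?_, ?_⟩
    · have hpt : ∀ x : Fin L, (Function.update σ j ⟨(σ j).val + 1, by omega⟩ x).val =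
          (σ x).val + if x = j then 1 else 0 := by
        intro x
        by_cases hx : x = j
        · subst hx
          simp
        · rw [Function.update_of_ne hx, if_neg hx, add_zero]
      unfold num
      rw [Finset.sum_congr rfl (fun x _ => hpt x), Finset.sum_add_distrib]
      have : ∑ x : Fin L, (σ x).val = N := hσ
      rw [this]
      simp
    · intro x hx
      have hxj : x ≠ j := fun h => hx (h ▸ hj)
      rw [Function.update_of_ne hxj]
      exact hz x hx

/-- every total `N ≤ L` is realised by a configuration vanishing on the odd sites -/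
theorem exists_cfg_even (hev : Even L) (N : ℕ) (hN : N ≤ L) :
    ∃ σ : Cfg L, num σ = N ∧ ∀ j : Fin L, j.val % 2 = 1 → σ j = 0 := by
  obtain ⟨σ, h1, h2⟩ := exists_cfg_par 0 (by norm_num) hev N hN
  exact ⟨σ, h1, fun j hj => h2 j (by omega)⟩

/-- every total `N ≤ L` is realised by a configuration vanishing on the even sites -/
theorem exists_cfg_odd (hev : Even L) (N : ℕ) (hN : N ≤ L) :
    ∃ σ : Cfg L, num σ = N ∧ ∀ j : Fin L, j.val % 2 = 0 → σ j = 0 := by
  obtain ⟨σ, h1, h2⟩ := exists_cfg_par 1 (by norm_num) hev N hN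
  exact ⟨σ, h1, fun j hj => h2 j (by omega)⟩

end Vale.Agent.Lib.P348
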