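import Vale.Agent.Lib.P348.Moments2

namespace Vale.Agent.Lib.P348

open Matrix

/-- a vector orthogonal to all ground vectors has excitation energy at least the gap -/
theorem gap_first_moment {n : Type*} [Fintype n] [DecidableEq n] (H : Matrix n n ℂ)
    (hH : H.IsHermitian) (E0 E1 : ℝ) (hE1 : IsLeast {x | IsEig H x ∧ x ≠ E0} E1)
    (φ : n → ℂ) (horth : ∀ w : n → ℂ, H *ᵥ w = (E0 : ℂ) • w → star w ⬝ᵥ φ = 0) :
    (E1 - E0) * (star φ ⬝ᵥ φ).re ≤ (star φ ⬝ᵥ (H *ᵥ φ)).re - E0 * (star φ ⬝ᵥ φ).re := by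
  obtain ⟨μ, b, hb, h0, h1⟩ := moments2 H hH
  rw [h0 φ, h1 φ, Finset.mul_sum, Finset.mul_sum, ← Finset.sum_sub_distrib]
  refine Finset.sum_le_sum fun i _ => ?_
  by_cases hi : μ i = E0
  · have h2 : star (b i) ⬝ᵥ φ = 0 := by
      apply horth
      rw [← hi]
      exact (hb i).2
    rw [h2]
    simp
  · have h3 : E1 ≤ μ i := hE1.2 ⟨⟨b i, (hb i).1, (hb i).2⟩, hi⟩
    have h4 : 0 ≤ ‖star (b i) ⬝ᵥ φ‖ ^ 2 := by positivity
    nlinarith

end Vale.Agent.Lib.P348
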