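import Vale.Agent.Lib.P348.Table
import Vale.Agent.Lib.P348.Ring

namespace Vale.Agent.Lib.P348

open Matrix

variable {L : ℕ}

theorem flip_flip (σ : Cfg L) : flip (flip σ) = σ := by
  funext j
  simp [flip]

theorem num_flip (σ : Cfg L) : num (flip σ) + num σ = 2 * L := by
  unfold num flip
  rw [← Finset.sum_add_distrib]
  have h : ∀ j ∈ (Finset.univ : Finset (Fin L)), (Fin.rev (σ j)).val + (σ j).val = 2 := by
    intro j _
    have := (σ j).isLt
    rw [Fin.val_rev]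
    omega
  rw [Finset.sum_congr rfl h]
  simp [mul_comm]

theorem ham_flip (hL : 2 ≤ L) (σ τ : Cfg L) : ham L (flip σ) (flip τ) = ham L σ τ := by
  unfold ham
  rw [Matrix.sum_apply, Matrix.sum_apply]
  apply Finset.sum_congr rfl
  intro j _
  rw [bond_apply (nxt_ne hL j).symm, bond_apply (nxt_ne hL j).symm]
  have hiff : (∀ k, k ≠ j → k ≠ nxt j → flip σ k = flip τ k) ↔
      (∀ k, k ≠ j → k ≠ nxt j → σ k = τ k) := by
    constructor
    · intro h k h1 h2
      exact Fin.rev_inj.1 (h k h1 h2)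
    · intro h k h1 h2
      show Fin.rev (σ k) = Fin.rev (τ k)
      rw [h k h1 h2]
  by_cases hc : ∀ k, k ≠ j → k ≠ nxt j → σ k = τ k
  · rw [if_pos hc, if_pos (hiff.2 hc)]
    exact Q_rev _ _ _ _
  · rw [if_neg hc, if_neg (fun h => hc (hiff.1 h))]

/-- the spin flip maps eigenvectors to eigenvectors -/
theorem flip_ground (hL : 2 ≤ L) (E0 : ℝ) (ψ : Cfg L → ℂ) (hψ : ham L *ᵥ ψ = (E0 : ℂ) • ψ) :
    ham L *ᵥ (fun σ => ψ (flip σ)) = (E0 : ℂ) • (fun σ => ψ (flip σ)) := by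
  funext σ
  have hinv : Function.Involutive (flip : Cfg L → Cfg L) := flip_flip
  have h1 : (ham L *ᵥ (fun σ => ψ (flip σ))) σ = (ham L *ᵥ ψ) (flip σ) := by
    simp only [Matrix.mulVec, dotProduct]
    rw [← Equiv.sum_comp hinv.toPerm (fun τ => ham L (flip σ) τ * ψ τ)]
    apply Finset.sum_congr rfl
    intro τ _
    show ham L σ τ * ψ (flip τ) = ham L (flip σ) (flip τ) * ψ (flip τ)
    rw [ham_flip hL]
  rw [h1, hψ]
  rfl

end Vale.Agent.Lib.P348
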