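import Vale.Agent.Lib.P348.Three1
import Vale.Agent.Lib.P348.Bounds

namespace Vale.Agent.Lib.P348

open Matrix

variable {L : ℕ}

/-- the weighted spin operator `∑_j w_j S^α_j` -/
noncomputable def AW (w : Fin L → ℝ) (α : Fin 3) : Matrix (Cfg L) (Cfg L) ℂ :=
  ∑ j : Fin L, (w j : ℂ) • site j (S α)

theorem AW_herm (w : Fin L → ℝ) (α : Fin 3) : (AW w α).IsHermitian := by
  rw [Matrix.IsHermitian, AW, Matrix.conjTranspose_sum]
  refine Finset.sum_congr rfl fun j _ => ?_
  rw [Matrix.conjTranspose_smul, (site_S_herm j α).eq]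
  congr 1
  exact Complex.conj_ofReal _

private theorem dc2_sum_left {n ι : Type*} [Fintype n] (H B : Matrix n n ℂ) (s : Finset ι)
    (c : ι → ℂ) (X : ι → Matrix n n ℂ) :
    dc2 H (∑ i ∈ s, c i • X i) B = ∑ i ∈ s, c i • dc2 H (X i) B := by
  simp only [dc2, Finset.sum_mul, Finset.mul_sum, Matrix.smul_mul, Matrix.mul_smul, smul_sub,
    Finset.sum_sub_distrib]

private theorem dc2_sum_right {n ι : Type*} [Fintype n] (H A : Matrix n n ℂ) (s : Finset ι)
    (c : ι → ℂ) (X : ι → Matrix n n ℂ) :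
    dc2 H A (∑ j ∈ s, c j • X j) = ∑ j ∈ s, c j • dc2 H A (X j) := by
  simp only [dc2, Finset.sum_mul, Finset.mul_sum, Matrix.smul_mul, Matrix.mul_smul, smul_sub,
    Finset.sum_sub_distrib, Matrix.mul_sub, Matrix.sub_mul]

/-- bilinear expansion of the double commutator -/
theorem dc_lin {n ι : Type*} [Fintype n] (H : Matrix n n ℂ) (s : Finset ι) (c : ι → ℂ)
    (X : ι → Matrix n n ℂ) :
    dc H (∑ j ∈ s, c j • X j) = ∑ i ∈ s, ∑ j ∈ s, (c i * c j) • dc2 H (X i) (X j) := by
  have h0 : dc H (∑ j ∈ s, c j • X j) = dc2 H (∑ j ∈ s, c j • X j) (∑ j ∈ s, c j • X j) := rfl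
  rw [h0, dc2_sum_left]
  refine Finset.sum_congr rfl fun i _ => ?_
  rw [dc2_sum_right, Finset.smul_sum]
  refine Finset.sum_congr rfl fun j _ => ?_
  rw [smul_smul]

/-- a double sum whose terms vanish unless both indices lie in `{a, b}` -/
theorem sum_sum_pair {ι M : Type*} [Fintype ι] [DecidableEq ι] [AddCommMonoid M] (a b : ι)
    (hab : a ≠ b) (f : ι → ι → M)
    (h1 : ∀ i j, i ≠ a → i ≠ b → f i j = 0) (h2 : ∀ i j, j ≠ a → j ≠ b → f i j = 0) :
    ∑ i, ∑ j, f i j = f a a + f a b + (f b a + f b b) := by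
  have hin : ∀ i, ∑ j, f i j = f i a + f i b := by
    intro i
    rw [Finset.sum_eq_add a b hab]
    · intro j _ hj
      exact h2 i j hj.1 hj.2
    · intro h
      exact absurd (Finset.mem_univ a) h
    · intro h
      exact absurd (Finset.mem_univ b) h
  rw [Finset.sum_eq_add a b hab, hin a, hin b]
  · intro i _ hi
    exact Finset.sum_eq_zero fun j _ => h1 i j hi.1 hi.2
  · intro h
    exact absurd (Finset.mem_univ a) h
  · intro h
    exact absurd (Finset.mem_univ b) h

end Vale.Agent.Lib.P348
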