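import Vale.Agent.Lib.P348.Gen0

namespace Vale.Agent.Lib.P348

open Matrix

variable {L : ℕ}

/-- one bond: `∑_α [A_w, [S_a·S_b, A_w]] = -2 (w_a - w_b)² S_a·S_b` -/
theorem dc_bond_AW {a b : Fin L} (hab : a ≠ b) (w : Fin L → ℝ) :
    ∑ α : Fin 3, dc (bond a b) (AW w α) = ((-2 * (w a - w b) ^ 2 : ℝ) : ℂ) • bond a b := by
  have h : ∀ α : Fin 3, dc (bond a b) (AW w α) =
      ((w a : ℂ) * (w a : ℂ)) • dc (bond a b) (site a (S α))
      + ((w a : ℂ) * (w b : ℂ)) • dc2 (bond a b) (site a (S α)) (site b (S α))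
      + (((w b : ℂ) * (w a : ℂ)) • dc2 (bond a b) (site b (S α)) (site a (S α))
      + ((w b : ℂ) * (w b : ℂ)) • dc (bond a b) (site b (S α))) := by
    intro α
    rw [AW, dc_lin]
    rw [sum_sum_pair a b hab (fun i j => ((w i : ℂ) * (w j : ℂ)) •
      dc2 (bond a b) (site i (S α)) (site j (S α)))]
    · rfl
    · intro i j hia hib
      by_cases hij : i = j
      · subst hij
        rw [dc2_bond_inner hia hib, smul_zero]
      · rw [dc2_bond_outer hia hib hij, smul_zero]
    · intro i j hja hjb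
      rw [dc2_bond_inner hja hjb, smul_zero]
  simp_rw [h]
  rw [Finset.sum_add_distrib, Finset.sum_add_distrib, Finset.sum_add_distrib,
    ← Finset.smul_sum, ← Finset.smul_sum, ← Finset.smul_sum, ← Finset.smul_sum,
    dc_bond_first hab, dc_bond_second hab, dc2_bond_ab hab, dc2_bond_ba hab]
  simp only [smul_smul, ← add_smul]
  congr 1
  push_cast
  ring

/-- the sum rule for arbitrary real weights -/
theorem sum_rule_gen (hL : 2 ≤ L) (w : Fin L → ℝ) :
    ∑ α : Fin 3, dc (ham L) (AW w α)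
      = ∑ k : Fin L, ((-2 * (w k - w (nxt k)) ^ 2 : ℝ) : ℂ) • bond k (nxt k) := by
  unfold ham
  simp_rw [dc_sum]
  rw [Finset.sum_comm]
  exact Finset.sum_congr rfl (fun k _ => dc_bond_AW (nxt_ne hL k).symm w)

end Vale.Agent.Lib.P348
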