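import Vale.Agent.Lib.P348.Offdiag

namespace Vale.Agent.Lib.P348

open Matrix

variable {L : ℕ}

private theorem sector_aux {n : Type*} [Fintype n] (H : Matrix n n ℂ) (f : n → ℕ)
    (hH : ∀ σ τ, H σ τ ≠ 0 → f σ = f τ) (E0 : ℂ) (ψ : n → ℂ) (hψ : H *ᵥ ψ = E0 • ψ) (N : ℕ) :
    H *ᵥ (fun σ => if f σ = N then ψ σ else 0) = E0 • (fun σ => if f σ = N then ψ σ else 0) := by
  funext σ
  have h1 : (H *ᵥ ψ) σ = E0 * ψ σ := by
    rw [hψ]
    rfl
  have h2 : (H *ᵥ (fun σ => if f σ = N then ψ σ else 0)) σ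
      = if f σ = N then (H *ᵥ ψ) σ else 0 := by
    by_cases hN : f σ = N
    · rw [if_pos hN]
      apply Finset.sum_congr rfl
      intro τ _
      show H σ τ * (if f τ = N then ψ τ else 0) = H σ τ * ψ τ
      by_cases h0 : H σ τ = 0
      · rw [h0, zero_mul, zero_mul]
      · have : f τ = N := by rw [← hH σ τ h0]; exact hN
        simp only [this, if_true]
    · rw [if_neg hN]
      apply Finset.sum_eq_zero
      intro τ _
      show H σ τ * (if f τ = N then ψ τ else 0) = 0
      by_cases h0 : H σ τ = 0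
      · rw [h0, zero_mul]
      · have : f τ ≠ N := by rw [← hH σ τ h0]; exact hN
        simp only [this, if_false, mul_zero]
  rw [h2, h1]
  simp only [Pi.smul_apply, smul_eq_mul]
  split_ifs <;> simp

/-- the component of an eigenvector in a sector of fixed `num` is again an eigenvector -/
theorem sector_ground (hL : 2 ≤ L) (E0 : ℝ) (ψ : Cfg L → ℂ) (hψ : ham L *ᵥ ψ = (E0 : ℂ) • ψ)
    (N : ℕ) :
    ham L *ᵥ (fun σ => if num σ = N then ψ σ else 0)
      = (E0 : ℂ) • (fun σ => if num σ = N then ψ σ else 0) :=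
  sector_aux (ham L) num (fun σ τ h => ham_num hL σ τ h) (E0 : ℂ) ψ hψ N

end Vale.Agent.Lib.P348
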