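import Vale.Agent.Lib.P348.Defs2
import Vale.Agent.Lib.P348.Ring

namespace Vale.Agent.Lib.P348

variable {L : ℕ}

/-- the factor of the Marshall sign at one site -/
private def fac (j : Fin L) (s : Fin 3) : ℝ := if j.val % 2 = 1 ∧ s = 1 then (-1 : ℝ) else 1

private theorem msign_split (σ : Cfg L) (j : Fin L) :
    msign σ = fac j (σ j) * ∏ i ∈ Finset.univ.erase j, fac i (σ i) :=
  (Finset.mul_prod_erase Finset.univ (fun i => fac i (σ i)) (Finset.mem_univ j)).symm

private theorem msign_update (σ : Cfg L) (j : Fin L) (s : Fin 3) :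
    msign (Function.update σ j s) = fac j s * ∏ i ∈ Finset.univ.erase j, fac i (σ i) := by
  rw [msign_split _ j, Function.update_self]
  congr 1
  refine Finset.prod_congr rfl (fun i hi => ?_)
  rw [Function.update_of_ne (Finset.ne_of_mem_erase hi)]

private theorem num_split (σ : Cfg L) (j : Fin L) :
    num σ = (σ j).val + ∑ i ∈ Finset.univ.erase j, (σ i).val :=
  (Finset.add_sum_erase Finset.univ (fun i => (σ i).val) (Finset.mem_univ j)).symm

private theorem nxt_cases (j : Fin L) :
    (j.val + 1 < L ∧ (nxt j).val = j.val + 1) ∨ (j.val + 1 = L ∧ (nxt j).val = 0) := by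
  have hj := j.isLt
  rcases Nat.lt_or_ge (j.val + 1) L with h | h
  · left
    exact ⟨h, by simp [nxt, Nat.mod_eq_of_lt h]⟩
  · right
    have h' : j.val + 1 = L := by omega
    refine ⟨h', ?_⟩
    simp [nxt, h']

theorem msign_sq (σ : Cfg L) : msign σ = 1 ∨ msign σ = -1 := by
  unfold msign
  refine Finset.prod_induction _ (fun x : ℝ => x = 1 ∨ x = -1) ?_ (Or.inl rfl) ?_
  · rintro a b (rfl | rfl) (rfl | rfl) <;> norm_num
  · intro j _
    by_cases h : j.val % 2 = 1 ∧ σ j = 1
    · right; rw [if_pos h]
    · left; rw [if_neg h]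

/-- changing the value at an even site does not change the Marshall sign -/
theorem msign_update_even (σ : Cfg L) (j : Fin L) (hj : j.val % 2 = 0) (s : Fin 3) :
    msign (Function.update σ j s) = msign σ := by
  rw [msign_update, msign_split σ j]
  have h : ∀ t : Fin 3, fac j t = 1 := by
    intro t
    unfold fac
    rw [if_neg]
    rintro ⟨h1, _⟩
    omega
  rw [h, h]

/-- changing the value at an odd site by one unit flips the Marshall sign -/
theorem msign_update_odd (σ : Cfg L) (j : Fin L) (hj : j.val % 2 = 1) (s : Fin 3)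
    (hs : s.val + 1 = (σ j).val ∨ (σ j).val + 1 = s.val) :
    msign (Function.update σ j s) = - msign σ := by
  rw [msign_update, msign_split σ j]
  have key : ∀ s t : Fin 3, (s.val + 1 = t.val ∨ t.val + 1 = s.val) →
      (if s = 1 then (-1 : ℝ) else 1) = - (if t = 1 then (-1 : ℝ) else 1) := by
    intro s t
    fin_cases s <;> fin_cases t <;> simp
  have h : fac j s = - fac j (σ j) := by
    unfold fac
    simp only [hj, true_and]
    exact key s (σ j) hs
  rw [h, neg_mul]

theorem num_update (σ : Cfg L) (j : Fin L) (s : Fin 3) :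
    num (Function.update σ j s) + (σ j).val = num σ + s.val := by
  rw [num_split _ j, num_split σ j, Function.update_self]
  have : ∑ i ∈ Finset.univ.erase j, ((Function.update σ j s) i).val
      = ∑ i ∈ Finset.univ.erase j, (σ i).val := by
    refine Finset.sum_congr rfl (fun i hi => ?_)
    rw [Function.update_of_ne (Finset.ne_of_mem_erase hi)]
  rw [this]
  omega

private theorem hop_eq (hL : 2 ≤ L) (σ τ : Cfg L) (k : Fin L)
    (h1 : ∀ j, j ≠ k → j ≠ nxt k → σ j = τ j) :
    τ = Function.update (Function.update σ k (τ k)) (nxt k) (τ (nxt k)) := by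
  funext j
  by_cases hj : j = nxt k
  · subst hj
    rw [Function.update_self]
  · rw [Function.update_of_ne hj]
    by_cases hk : j = k
    · subst hk
      rw [Function.update_self]
    · rw [Function.update_of_ne hk]
      exact (h1 j hk hj).symm

/-- an exchange move flips the Marshall sign (the ring has even length) -/
theorem msign_hop (hL : 2 ≤ L) (hev : Even L) (σ τ : Cfg L) (k : Fin L)
    (h1 : ∀ j, j ≠ k → j ≠ nxt k → σ j = τ j)
    (h2 : Move (σ k) (σ (nxt k)) (τ k) (τ (nxt k))) : msign σ * msign τ = -1 := by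
  obtain ⟨m, hm⟩ := hev
  have hne : nxt k ≠ k := nxt_ne hL k
  have hτ := hop_eq hL σ τ k h1
  have hval : (Function.update σ k (τ k)) (nxt k) = σ (nxt k) := Function.update_of_ne hne _ _
  have hneg : msign τ = - msign σ := by
    rw [hτ]
    rcases Nat.mod_two_eq_zero_or_one k.val with hk | hk
    · have hn : (nxt k).val % 2 = 1 := by
        rcases nxt_cases k with ⟨a1, a2⟩ | ⟨a1, a2⟩ <;> omega
      rw [msign_update_odd _ _ hn, msign_update_even _ _ hk]
      rw [hval]
      rcases h2 with ⟨_, h⟩ | ⟨_, h⟩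
      · exact Or.inl h
      · exact Or.inr h
    · have hn : (nxt k).val % 2 = 0 := by
        rcases nxt_cases k with ⟨a1, a2⟩ | ⟨a1, a2⟩ <;> omega
      rw [msign_update_even _ _ hn, msign_update_odd _ _ hk]
      rcases h2 with ⟨h, _⟩ | ⟨h, _⟩
      · exact Or.inr h
      · exact Or.inl h
  rw [hneg]
  rcases msign_sq σ with h | h <;> rw [h] <;> norm_num

/-- an exchange move preserves `num` -/
theorem num_hop (hL : 2 ≤ L) (σ τ : Cfg L) (k : Fin L)
    (h1 : ∀ j, j ≠ k → j ≠ nxt k → σ j = τ j)
    (h2 : Move (σ k) (σ (nxt k)) (τ k) (τ (nxt k))) : num σ = num τ := by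
  have hne : nxt k ≠ k := nxt_ne hL k
  have hτ := hop_eq hL σ τ k h1
  have hval : (Function.update σ k (τ k)) (nxt k) = σ (nxt k) := Function.update_of_ne hne _ _
  have e1 := num_update σ k (τ k)
  have e2 := num_update (Function.update σ k (τ k)) (nxt k) (τ (nxt k))
  rw [← hτ, hval] at e2
  rcases h2 with ⟨a, b⟩ | ⟨a, b⟩ <;> omega

end Vale.Agent.Lib.P348
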