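import Vale.Agent.Lib.P348.Defs2
import Vale.Agent.Lib.P348.Algebra

namespace Vale.Agent.Lib.P348

open Matrix

variable {L : ℕ}

theorem tot_add (A B : Matrix (Fin 3) (Fin 3) ℂ) : tot L (A + B) = tot L A + tot L B := by
  simp only [tot, site_add, Finset.sum_add_distrib]

theorem tot_sub (A B : Matrix (Fin 3) (Fin 3) ℂ) : tot L (A - B) = tot L A - tot L B := by
  simp only [tot, site_sub, Finset.sum_sub_distrib]

theorem tot_smul (c : ℂ) (A : Matrix (Fin 3) (Fin 3) ℂ) : tot L (c • A) = c • tot L A := by
  simp only [tot, site_smul, Finset.smul_sum]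

theorem tot_conjTranspose (A : Matrix (Fin 3) (Fin 3) ℂ) : (tot L A)ᴴ = tot L Aᴴ := by
  simp only [tot, Matrix.conjTranspose_sum, site_conjTranspose]

/-- commutator of a total operator with a one-site operator -/
theorem tot_comm_site (A B : Matrix (Fin 3) (Fin 3) ℂ) (j : Fin L) :
    tot L A * site j B - site j B * tot L A = site j (A * B - B * A) := by
  have h : tot L A * site j B - site j B * tot L A
      = ∑ k : Fin L, (site k A * site j B - site j B * site k A) := by
    simp only [tot, Finset.sum_mul, Finset.mul_sum, Finset.sum_sub_distrib]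
  rw [h, Finset.sum_eq_single j]
  · rw [site_sub, site_mul, site_mul]
  · intro k _ hk
    rw [site_comm hk, sub_self]
  · intro hj
    exact absurd (Finset.mem_univ j) hj

/-- commutator of two total operators -/
theorem tot_comm_tot (A B : Matrix (Fin 3) (Fin 3) ℂ) :
    tot L A * tot L B - tot L B * tot L A = tot L (A * B - B * A) := by
  have h : tot L A * tot L B - tot L B * tot L A
      = ∑ j : Fin L, (tot L A * site j B - site j B * tot L A) := by
    rw [Finset.sum_sub_distrib, ← Finset.mul_sum, ← Finset.sum_mul]
    rfl
  rw [h]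
  simp only [tot_comm_site]
  rfl

end Vale.Agent.Lib.P348
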