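import Vale.Agent.Lib.P348.Act
import Vale.Agent.Lib.P348.Sign
import Vale.Agent.Lib.P348.Tot
import Vale.Agent.Lib.P348.Spin2

namespace Vale.Agent.Lib.P348

open Matrix

variable {L : ℕ}

theorem tot_Sm_zero_of_support (ψ : Cfg L → ℂ) (hsupp : ∀ σ, num σ ≠ L → ψ σ = 0)
    (hχ : ∀ σ, num σ ≠ L → (tot L Sm *ᵥ ψ) σ = 0) : tot L Sm *ᵥ ψ = 0 := by
  funext σ
  by_cases h : num σ = L
  · rw [tot_Sm_mulVec]
    have h0 : ∀ j : Fin L, ∀ s : Fin 3,
        (if s.val + 1 = (σ j).val then ψ (Function.update σ j s) else 0) = 0 := by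
      intro j s
      split_ifs with hs
      · apply hsupp
        have := num_update σ j s
        omega
      · rfl
    simp [h0]
  · exact hχ σ h

theorem tot_Sp_zero_of_support (ψ : Cfg L → ℂ) (hsupp : ∀ σ, num σ ≠ L → ψ σ = 0)
    (hχ : ∀ σ, num σ ≠ L → (tot L Sp *ᵥ ψ) σ = 0) : tot L Sp *ᵥ ψ = 0 := by
  funext σ
  by_cases h : num σ = L
  · rw [tot_Sp_mulVec]
    have h0 : ∀ j : Fin L, ∀ s : Fin 3,
        (if (σ j).val + 1 = s.val then ψ (Function.update σ j s) else 0) = 0 := by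
      intro j s
      split_ifs with hs
      · apply hsupp
        have := num_update σ j s
        omega
      · rfl
    simp [h0]
  · exact hχ σ h

theorem tot_S_zero (ψ : Cfg L → ℂ) (hp : tot L Sp *ᵥ ψ = 0) (hm : tot L Sm *ᵥ ψ = 0)
    (α : Fin 3) : tot L (S α) *ᵥ ψ = 0 := by
  have hx : tot L Sx *ᵥ ψ = 0 := by
    have e : (2 : ℂ) • Sx = Sp + Sm := by
      unfold Sp Sm
      module
    have h2 : (2 : ℂ) • (tot L Sx *ᵥ ψ) = 0 := by
      rw [← Matrix.smul_mulVec, ← tot_smul, e, tot_add, Matrix.add_mulVec, hp, hm, add_zero]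
    exact (smul_eq_zero.1 h2).resolve_left two_ne_zero
  have hy : tot L Sy *ᵥ ψ = 0 := by
    have e : (2 * Complex.I) • Sy = Sp - Sm := by
      unfold Sp Sm
      module
    have h2 : (2 * Complex.I) • (tot L Sy *ᵥ ψ) = 0 := by
      rw [← Matrix.smul_mulVec, ← tot_smul, e, tot_sub, Matrix.sub_mulVec, hp, hm, sub_zero]
    exact (smul_eq_zero.1 h2).resolve_left (mul_ne_zero two_ne_zero Complex.I_ne_zero)
  have hz : tot L Sz *ᵥ ψ = 0 := by
    have e : Complex.I • tot L Sz = tot L Sx * tot L Sy - tot L Sy * tot L Sx := by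
      rw [tot_comm_tot, comm_xy, tot_smul]
    have h2 : Complex.I • (tot L Sz *ᵥ ψ) = 0 := by
      rw [← Matrix.smul_mulVec, e, Matrix.sub_mulVec, ← Matrix.mulVec_mulVec,
        ← Matrix.mulVec_mulVec, hx, hy, Matrix.mulVec_zero, Matrix.mulVec_zero, sub_zero]
    exact (smul_eq_zero.1 h2).resolve_left Complex.I_ne_zero
  fin_cases α
  · exact hx
  · exact hy
  · exact hz

private theorem ortho_aux (ψ ψ' : Cfg L → ℂ) (j : Fin L) (A B C : Matrix (Fin 3) (Fin 3) ℂ)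
    (hB : Bᴴ = B) (hc : B * C - C * B = Complex.I • A) (h : tot L B *ᵥ ψ = 0)
    (h' : tot L B *ᵥ ψ' = 0) : star ψ' ⬝ᵥ (site j A *ᵥ ψ) = 0 := by
  have e : Complex.I • site j A = tot L B * site j C - site j C * tot L B := by
    rw [tot_comm_site, hc, site_smul]
  have h1 : star ψ' ᵥ* tot L B = 0 := by
    have h3 := congrArg star h'
    rw [star_mulVec, tot_conjTranspose, hB, star_zero] at h3
    exact h3
  have h2 : Complex.I • (star ψ' ⬝ᵥ (site j A *ᵥ ψ)) = 0 := by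
    rw [← dotProduct_smul, ← Matrix.smul_mulVec, e, Matrix.sub_mulVec, ← Matrix.mulVec_mulVec,
      ← Matrix.mulVec_mulVec, h, Matrix.mulVec_zero, sub_zero, dotProduct_mulVec, h1,
      zero_dotProduct]
  exact (smul_eq_zero.1 h2).resolve_left Complex.I_ne_zero

/-- one-site spin operators have vanishing matrix elements between total singlets -/
theorem site_ortho (ψ ψ' : Cfg L → ℂ) (h : ∀ α, tot L (S α) *ᵥ ψ = 0)
    (h' : ∀ α, tot L (S α) *ᵥ ψ' = 0) (j : Fin L) (α : Fin 3) :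
    star ψ' ⬝ᵥ (site j (S α) *ᵥ ψ) = 0 := by
  fin_cases α
  · exact ortho_aux ψ ψ' j Sx Sy Sz (S_herm 1) comm_yz (h 1) (h' 1)
  · exact ortho_aux ψ ψ' j Sy Sz Sx (S_herm 2) comm_zx (h 2) (h' 2)
  · exact ortho_aux ψ ψ' j Sz Sx Sy (S_herm 0) comm_xy (h 0) (h' 0)

end Vale.Agent.Lib.P348
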