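import Vale.Agent.Lib.P348.NoHigher
import Vale.Agent.Lib.P348.Sector
import Vale.Agent.Lib.P348.Flip
import Vale.Agent.Lib.P348.Singlet

namespace Vale.Agent.Lib.P348

open Matrix

variable {L : ℕ}

/-- every ground vector lives in the sector of zero total magnetisation -/
theorem ground_support (hL : 2 ≤ L) (hev : Even L) (E0 : ℝ) (hlow : LowerBd (ham L) E0)
    (ψ : Cfg L → ℂ) (hψ : ham L *ᵥ ψ = (E0 : ℂ) • ψ) (σ : Cfg L) (hσ : num σ ≠ L) :
    ψ σ = 0 := by
  set N := num σ with hN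
  have hsec := sector_ground hL E0 ψ hψ N
  set ψN : Cfg L → ℂ := fun τ => if num τ = N then ψ τ else 0 with hψN
  have hval : ψN σ = ψ σ := by simp [hψN, hN]
  rcases lt_or_gt_of_ne hσ with h | h
  · have h0 := no_low_sector hL hev E0 hlow ψN hsec N h (fun τ hτ => by simp [hψN, hτ])
    rw [← hval, h0]
    rfl
  · have hfl := flip_ground hL E0 ψN hsec
    have hle : N ≤ 2 * L := by
      have := num_flip σ
      omega
    have h0 := no_low_sector hL hev E0 hlow _ hfl (2 * L - N) (by omega) (fun τ hτ => by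
      have h1 := num_flip τ
      have h2 : num (flip τ) ≠ N := by omega
      simp [hψN, h2])
    have h1 := congrFun h0 (flip σ)
    simp only [flip_flip] at h1
    rw [← hval, h1]
    rfl

/-- the ground state is nondegenerate -/
theorem ground_unique (hL : 2 ≤ L) (hev : Even L) (E0 : ℝ) (hlow : LowerBd (ham L) E0)
    (v w : Cfg L → ℂ) (hv0 : v ≠ 0) (hv : ham L *ᵥ v = (E0 : ℂ) • v)
    (hw : ham L *ᵥ w = (E0 : ℂ) • w) : ∃ c : ℂ, w = c • v := by
  obtain ⟨σ0, hσ0⟩ : ∃ σ0, v σ0 ≠ 0 := by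
    by_contra h
    exact hv0 (funext fun σ => by_contra fun h' => h ⟨σ, h'⟩)
  have hnum0 : num σ0 = L := by
    by_contra h
    exact hσ0 (ground_support hL hev E0 hlow v hv σ0 h)
  refine ⟨w σ0 / v σ0, funext fun τ => ?_⟩
  by_cases hτ : num τ = L
  · have h := ground_prop (ham L) (ham_herm hL) msign (ham_stoq hL hev) E0 hlow v w hv hw σ0 τ
      (ham_conn hL σ0 τ (hnum0.trans hτ.symm))
    rw [Pi.smul_apply, smul_eq_mul, div_mul_eq_mul_div, h, mul_div_assoc, mul_comm,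
      div_mul_cancel₀ _ hσ0] 
  · rw [Pi.smul_apply, ground_support hL hev E0 hlow v hv τ hτ,
      ground_support hL hev E0 hlow w hw τ hτ, smul_zero]

/-- every ground vector is a total singlet -/
theorem ground_singlet (hL : 2 ≤ L) (hev : Even L) (E0 : ℝ) (hlow : LowerBd (ham L) E0)
    (ψ : Cfg L → ℂ) (hψ : ham L *ᵥ ψ = (E0 : ℂ) • ψ) (α : Fin 3) :
    tot L (S α) *ᵥ ψ = 0 := by
  have hsupp := ground_support hL hev E0 hlow ψ hψ
  have hm : ham L *ᵥ (tot L Sm *ᵥ ψ) = (E0 : ℂ) • (tot L Sm *ᵥ ψ) := by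
    rw [Matrix.mulVec_mulVec, ham_comm_tot_Sm hL, ← Matrix.mulVec_mulVec, hψ, Matrix.mulVec_smul]
  have hp : ham L *ᵥ (tot L Sp *ᵥ ψ) = (E0 : ℂ) • (tot L Sp *ᵥ ψ) := by
    rw [Matrix.mulVec_mulVec, ham_comm_tot_Sp hL, ← Matrix.mulVec_mulVec, hψ, Matrix.mulVec_smul]
  exact tot_S_zero ψ
    (tot_Sp_zero_of_support ψ hsupp (ground_support hL hev E0 hlow _ hp))
    (tot_Sm_zero_of_support ψ hsupp (ground_support hL hev E0 hlow _ hm)) α

/-- one-site spin operators map ground vectors to vectors orthogonal to all ground vectors -/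
theorem ground_ortho (hL : 2 ≤ L) (hev : Even L) (E0 : ℝ) (hlow : LowerBd (ham L) E0)
    (ψ w : Cfg L → ℂ) (hψ : ham L *ᵥ ψ = (E0 : ℂ) • ψ) (hw : ham L *ᵥ w = (E0 : ℂ) • w)
    (j : Fin L) (α : Fin 3) : star w ⬝ᵥ (site j (S α) *ᵥ ψ) = 0 :=
  site_ortho ψ w (ground_singlet hL hev E0 hlow ψ hψ) (ground_singlet hL hev E0 hlow w hw) j α

end Vale.Agent.Lib.P348
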