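import Vale.Agent.Lib.P348.Gen0
import Vale.Agent.Lib.P348.Unique

namespace Vale.Agent.Lib.P348

open Matrix

variable {L : ℕ}

/-- `A_w ψ` is orthogonal to every ground vector -/
theorem AW_ortho (hL : 2 ≤ L) (hev : Even L) (E0 : ℝ) (hlow : LowerBd (ham L) E0)
    (ψ v : Cfg L → ℂ) (hψ : ham L *ᵥ ψ = (E0 : ℂ) • ψ) (hv : ham L *ᵥ v = (E0 : ℂ) • v)
    (w : Fin L → ℝ) (α : Fin 3) : star v ⬝ᵥ (AW w α *ᵥ ψ) = 0 := by
  rw [AW, Matrix.sum_mulVec, dotProduct_sum]
  refine Finset.sum_eq_zero fun j _ => ?_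
  rw [Matrix.smul_mulVec, dotProduct_smul, ground_ortho hL hev E0 hlow ψ v hψ hv j α, smul_zero]

/-- the staggered weights change by `±2` across every bond of an even ring -/
theorem stagger_sq (hL : 2 ≤ L) (hev : Even L) (k : Fin L) :
    (((-1 : ℝ) ^ k.val) - ((-1 : ℝ) ^ (nxt k).val)) ^ 2 = 4 := by
  have hk := k.isLt
  have key : (-1 : ℝ) ^ (nxt k).val = - (-1 : ℝ) ^ k.val := by
    by_cases h : k.val + 1 < L
    · have : (nxt k).val = k.val + 1 := by
        simp only [nxt]
        exact Nat.mod_eq_of_lt h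
      rw [this, pow_succ]; ring
    · have h1 : k.val + 1 = L := by omega
      have : (nxt k).val = 0 := by
        simp only [nxt]
        rw [h1]; exact Nat.mod_self L
      rw [this, pow_zero]
      have hodd : Odd k.val := by
        rcases hev with ⟨m, hm⟩
        exact ⟨m - 1, by omega⟩
      rw [hodd.neg_one_pow]; ring
  rw [key]
  rcases neg_one_pow_eq_or ℝ k.val with h | h <;> rw [h] <;> norm_num

end Vale.Agent.Lib.P348
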