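import Vale.Agent.Lib.P348.Defs

namespace Vale.Agent.Lib.P348

open Matrix

theorem comm_apply {n : Type*} [Fintype n] (H A : Matrix n n ℂ) (E0 : ℝ) (ψ : n → ℂ)
    (hψ : H *ᵥ ψ = (E0 : ℂ) • ψ) :
    H *ᵥ (A *ᵥ ψ) - (E0 : ℂ) • (A *ᵥ ψ) = (H * A - A * H) *ᵥ ψ := by
  rw [Matrix.sub_mulVec, ← Matrix.mulVec_mulVec, ← Matrix.mulVec_mulVec, hψ, Matrix.mulVec_smul]

private theorem herm_move {n : Type*} [Fintype n] (M : Matrix n n ℂ) (hM : M.IsHermitian)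
    (v w : n → ℂ) : star v ⬝ᵥ (M *ᵥ w) = star (M *ᵥ v) ⬝ᵥ w := by
  rw [Matrix.dotProduct_mulVec, Matrix.star_mulVec, hM.eq]

theorem double_comm_expect {n : Type*} [Fintype n] (H A : Matrix n n ℂ) (hH : H.IsHermitian)
    (hA : A.IsHermitian) (E0 : ℝ) (ψ : n → ℂ) (hψ : H *ᵥ ψ = (E0 : ℂ) • ψ) :
    (star ψ ⬝ᵥ ((A * (H * A - A * H) - (H * A - A * H) * A) *ᵥ ψ)).re
      = 2 * ((star (A *ᵥ ψ) ⬝ᵥ (H *ᵥ (A *ᵥ ψ))).re
          - E0 * (star (A *ᵥ ψ) ⬝ᵥ (A *ᵥ ψ)).re) := by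
  have e : A * (H * A - A * H) - (H * A - A * H) * A
      = A * (H * A) + A * (H * A) - A * (A * H) - H * (A * A) := by
    noncomm_ring
  have hD : (A * (H * A - A * H) - (H * A - A * H) * A) *ᵥ ψ
      = A *ᵥ (H *ᵥ (A *ᵥ ψ)) + A *ᵥ (H *ᵥ (A *ᵥ ψ)) - (E0 : ℂ) • (A *ᵥ (A *ᵥ ψ))
        - H *ᵥ (A *ᵥ (A *ᵥ ψ)) := by
    rw [e]
    simp only [Matrix.sub_mulVec, Matrix.add_mulVec, ← Matrix.mulVec_mulVec, hψ,
      Matrix.mulVec_smul]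
  have h1 : star ψ ⬝ᵥ (A *ᵥ (H *ᵥ (A *ᵥ ψ))) = star (A *ᵥ ψ) ⬝ᵥ (H *ᵥ (A *ᵥ ψ)) :=
    herm_move A hA _ _
  have h2 : star ψ ⬝ᵥ (A *ᵥ (A *ᵥ ψ)) = star (A *ᵥ ψ) ⬝ᵥ (A *ᵥ ψ) := herm_move A hA _ _
  have h3 : star ψ ⬝ᵥ (H *ᵥ (A *ᵥ (A *ᵥ ψ))) = (E0 : ℂ) * (star (A *ᵥ ψ) ⬝ᵥ (A *ᵥ ψ)) := by
    rw [herm_move H hH, hψ, star_smul, smul_dotProduct, h2, smul_eq_mul]
    simp
  rw [hD, dotProduct_sub, dotProduct_sub, dotProduct_add, dotProduct_smul, h1, h2, h3,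
    smul_eq_mul]
  simp only [Complex.sub_re, Complex.add_re, Complex.mul_re, Complex.ofReal_re,
    Complex.ofReal_im, zero_mul, sub_zero]
  ring

open scoped ComplexOrder in
theorem nrm_pos {n : Type*} [Fintype n] (v : n → ℂ) (hv : v ≠ 0) : 0 < (star v ⬝ᵥ v).re := by
  have h : (0 : ℂ) < star v ⬝ᵥ v := Matrix.dotProduct_star_self_pos_iff.2 hv
  exact (Complex.lt_def.1 h).1

private theorem star_single_one {n : Type*} [DecidableEq n] (σ : n) :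
    star (Pi.single σ (1 : ℂ) : n → ℂ) = Pi.single σ (1 : ℂ) := by
  ext i
  by_cases h : i = σ
  · subst h
    simp
  · simp [h]

theorem expect_single {n : Type*} [Fintype n] [DecidableEq n] (H : Matrix n n ℂ) (σ : n) :
    (star (Pi.single σ (1 : ℂ)) ⬝ᵥ (H *ᵥ (Pi.single σ (1 : ℂ)))) = H σ σ := by
  rw [star_single_one, single_dotProduct, one_mul, Matrix.mulVec_single_one]
  rfl

theorem nrm_single {n : Type*} [Fintype n] [DecidableEq n] (σ : n) :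
    (star (Pi.single σ (1 : ℂ) : n → ℂ) ⬝ᵥ (Pi.single σ (1 : ℂ))) = 1 := by
  rw [star_single_one, single_dotProduct, one_mul, Pi.single_eq_same]

end Vale.Agent.Lib.P348
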