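import Vale.Agent.Lib.P348.Act
import Vale.Agent.Lib.P348.Sign

namespace Vale.Agent.Lib.P348

open Matrix

variable {L : ℕ}

/-- the total lowering operator on a Marshall-signed vector, at a configuration vanishing on the
odd sites -/
theorem tot_Sm_even (f : Cfg L → ℝ) (σ : Cfg L) (hσ : ∀ j : Fin L, j.val % 2 = 1 → σ j = 0) :
    (tot L Sm *ᵥ (fun τ => ((msign τ * f τ : ℝ) : ℂ))) σ
      = 2 * r2 * ((msign σ * ∑ j : Fin L, ∑ s : Fin 3,
          (if s.val + 1 = (σ j).val then f (Function.update σ j s) else 0) : ℝ) : ℂ) := by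
  rw [tot_Sm_mulVec]
  congr 1
  rw [Finset.mul_sum]
  push_cast
  refine Finset.sum_congr rfl fun j _ => ?_
  rw [Finset.mul_sum]
  refine Finset.sum_congr rfl fun s _ => ?_
  by_cases h : s.val + 1 = (σ j).val
  · rw [if_pos h, if_pos h]
    have hj : j.val % 2 = 0 := by
      by_contra hne
      have h1 : j.val % 2 = 1 := by omega
      have h0 := hσ j h1
      rw [h0] at h
      simp at h
    rw [msign_update_even σ j hj s]
  · rw [if_neg h, if_neg h]
    simp

/-- the same at a configuration vanishing on the even sites: opposite sign -/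
theorem tot_Sm_odd (f : Cfg L → ℝ) (σ : Cfg L) (hσ : ∀ j : Fin L, j.val % 2 = 0 → σ j = 0) :
    (tot L Sm *ᵥ (fun τ => ((msign τ * f τ : ℝ) : ℂ))) σ
      = -(2 * r2 * ((msign σ * ∑ j : Fin L, ∑ s : Fin 3,
          (if s.val + 1 = (σ j).val then f (Function.update σ j s) else 0) : ℝ) : ℂ)) := by
  rw [tot_Sm_mulVec, ← mul_neg]
  congr 1
  rw [Finset.mul_sum]
  push_cast
  rw [← Finset.sum_neg_distrib]
  refine Finset.sum_congr rfl fun j _ => ?_
  rw [Finset.mul_sum, ← Finset.sum_neg_distrib]
  refine Finset.sum_congr rfl fun s _ => ?_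
  by_cases h : s.val + 1 = (σ j).val
  · rw [if_pos h, if_pos h]
    have hj : j.val % 2 = 1 := by
      by_contra hne
      have h1 : j.val % 2 = 0 := by omega
      have h0 := hσ j h1
      rw [h0] at h
      simp at h
    rw [msign_update_odd σ j hj s (Or.inl h)]
    push_cast
    ring
  · rw [if_neg h, if_neg h]
    simp

theorem lower_sum_pos (f : Cfg L → ℝ) (N : ℕ) (hf0 : ∀ τ, 0 ≤ f τ)
    (hf : ∀ τ, num τ = N → 0 < f τ) (σ : Cfg L) (hσ : num σ = N + 1) :
    0 < ∑ j : Fin L, ∑ s : Fin 3,
      (if s.val + 1 = (σ j).val then f (Function.update σ j s) else 0) := by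
  have hterm : ∀ (j : Fin L) (s : Fin 3),
      0 ≤ (if s.val + 1 = (σ j).val then f (Function.update σ j s) else 0) := by
    intro j s
    split_ifs
    · exact hf0 _
    · exact le_rfl
  obtain ⟨j, hj⟩ : ∃ j : Fin L, (σ j).val ≠ 0 := by
    by_contra hcon
    push Not at hcon
    have : num σ = 0 := by
      unfold num
      exact Finset.sum_eq_zero fun j _ => hcon j
    omega
  have hlt := (σ j).isLt
  let s : Fin 3 := ⟨(σ j).val - 1, by omega⟩
  have hs : s.val + 1 = (σ j).val := by
    show (σ j).val - 1 + 1 = (σ j).val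
    omega
  have hnum : num (Function.update σ j s) = N := by
    have := num_update σ j s
    omega
  have hpos : 0 < (if s.val + 1 = (σ j).val then f (Function.update σ j s) else 0) := by
    rw [if_pos hs]
    exact hf _ hnum
  have h1 : (if s.val + 1 = (σ j).val then f (Function.update σ j s) else 0)
      ≤ ∑ s : Fin 3, (if s.val + 1 = (σ j).val then f (Function.update σ j s) else 0) :=
    Finset.single_le_sum (f := fun s : Fin 3 =>
      (if s.val + 1 = (σ j).val then f (Function.update σ j s) else 0))
      (fun s _ => hterm j s) (Finset.mem_univ s)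
  have h2 : (∑ s : Fin 3, (if s.val + 1 = (σ j).val then f (Function.update σ j s) else 0))
      ≤ ∑ j : Fin L, ∑ s : Fin 3,
        (if s.val + 1 = (σ j).val then f (Function.update σ j s) else 0) :=
    Finset.single_le_sum (f := fun j : Fin L => ∑ s : Fin 3,
      (if s.val + 1 = (σ j).val then f (Function.update σ j s) else 0))
      (fun j _ => Finset.sum_nonneg fun s _ => hterm j s) (Finset.mem_univ j)
  linarith

end Vale.Agent.Lib.P348
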