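import Vale.Agent.Lib.P348.Defs

namespace Vale.Agent.Lib.P348

open Matrix

private lemma iso_aux {n : Type*} [Fintype n] [DecidableEq n] (U : Matrix n n ℂ)
    (hU : star U * U = 1) (z z' : n → ℂ) :
    star (U *ᵥ z) ⬝ᵥ (U *ᵥ z') = star z ⬝ᵥ z' := by
  rw [star_mulVec, dotProduct_mulVec, vecMul_vecMul, ← star_eq_conjTranspose, hU, vecMul_one]

private lemma re_star_dot {n : Type*} [Fintype n] (a : n → ℝ) (w : n → ℂ) :
    (star w ⬝ᵥ (fun i => (a i : ℂ) * w i)).re = ∑ i, a i * Complex.normSq (w i) := by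
  simp only [dotProduct, Pi.star_apply, Complex.re_sum]
  refine Finset.sum_congr rfl fun i _ => ?_
  simp only [Complex.star_def, Complex.mul_re, Complex.conj_re, Complex.conj_im,
    Complex.ofReal_re, Complex.ofReal_im, Complex.mul_im, Complex.normSq_apply]
  ring

/-- spectral theorem in moment form -/
theorem moments {n : Type*} [Fintype n] [DecidableEq n] (H : Matrix n n ℂ)
    (hH : H.IsHermitian) :
    ∃ (μ : n → ℝ) (c : (n → ℂ) → n → ℝ),
      (∀ i, IsEig H (μ i)) ∧ (∀ v i, 0 ≤ c v i) ∧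
      (∀ v, (star v ⬝ᵥ v).re = ∑ i, c v i) ∧
      (∀ v, (star v ⬝ᵥ (H *ᵥ v)).re = ∑ i, μ i * c v i) ∧
      (∀ v, (star (H *ᵥ v) ⬝ᵥ (H *ᵥ v)).re = ∑ i, μ i ^ 2 * c v i) := by
  set U : Matrix n n ℂ := (hH.eigenvectorUnitary : Matrix n n ℂ) with hUdef
  have hU1 : star U * U = 1 := Unitary.coe_star_mul_self hH.eigenvectorUnitary
  have hU2 : U * star U = 1 := Unitary.coe_mul_star_self hH.eigenvectorUnitary
  set μ : n → ℝ := hH.eigenvalues with hμ
  have hsp : H = U * diagonal (fun i => (μ i : ℂ)) * star U := by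
    have h := hH.spectral_theorem
    rw [Unitary.conjStarAlgAut_apply] at h
    exact h
  have hv : ∀ v : n → ℂ, v = U *ᵥ (star U *ᵥ v) := by
    intro v
    rw [mulVec_mulVec, hU2, one_mulVec]
  have hHv : ∀ v : n → ℂ, H *ᵥ v = U *ᵥ (fun i => (μ i : ℂ) * (star U *ᵥ v) i) := by
    intro v
    conv_lhs => rw [hsp]
    rw [← mulVec_mulVec, ← mulVec_mulVec]
    congr 1
    funext i
    rw [mulVec_diagonal]
  refine ⟨μ, fun v i => Complex.normSq ((star U *ᵥ v) i), ?_, fun v i => Complex.normSq_nonneg _,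
    ?_, ?_, ?_⟩
  · intro i
    refine ⟨⇑(hH.eigenvectorBasis i), ?_, ?_⟩
    · intro h0
      have h1 : hH.eigenvectorBasis i = 0 := by
        ext j
        exact congrFun h0 j
      have h2 := hH.eigenvectorBasis.orthonormal.1 i
      rw [h1, norm_zero] at h2
      exact zero_ne_one h2
    · rw [hH.mulVec_eigenvectorBasis i]
      funext j
      simp [hμ]
  · intro v
    conv_lhs => rw [hv v, iso_aux U hU1]
    have := re_star_dot (fun _ => (1 : ℝ)) (star U *ᵥ v)
    simpa using this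
  · intro v
    conv_lhs => rw [hHv v]
    conv_lhs => 
      enter [1, 1]
      rw [hv v]
    rw [iso_aux U hU1, re_star_dot]
  · intro v
    rw [hHv v, iso_aux U hU1]
    simp only [dotProduct, Pi.star_apply, Complex.re_sum]
    refine Finset.sum_congr rfl fun i _ => ?_
    simp only [Complex.star_def, map_mul, Complex.conj_ofReal, Complex.mul_re, Complex.conj_re,
      Complex.conj_im, Complex.ofReal_re, Complex.ofReal_im, Complex.mul_im, Complex.normSq_apply]
    ring

end Vale.Agent.Lib.P348
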