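import Vale.Agent.Lib.P348.Table
import Vale.Agent.Lib.P348.Sign

namespace Vale.Agent.Lib.P348

open Matrix

variable {L : ℕ}

/-- for `σ ≠ τ` each bond contributes `1` (if `τ` is an exchange move of `σ` on that bond)
or `0` -/
theorem bond_offdiag (hL : 2 ≤ L) (σ τ : Cfg L) (h : σ ≠ τ) (k : Fin L) :
    bond k (nxt k) σ τ =
      if (∀ j, j ≠ k → j ≠ nxt k → σ j = τ j) ∧ Move (σ k) (σ (nxt k)) (τ k) (τ (nxt k))
      then 1 else 0 := by
  rw [bond_apply (nxt_ne hL k).symm]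
  by_cases h1 : ∀ j, j ≠ k → j ≠ nxt k → σ j = τ j
  · rw [if_pos h1, Q_table]
    have h2 : ¬ (σ k = τ k ∧ σ (nxt k) = τ (nxt k)) := by
      rintro ⟨ha, hb⟩
      apply h
      funext j
      by_cases hj : j = k
      · rw [hj]; exact ha
      · by_cases hj2 : j = nxt k
        · rw [hj2]; exact hb
        · exact h1 j hj hj2
    rw [if_neg h2]
    by_cases h3 : Move (σ k) (σ (nxt k)) (τ k) (τ (nxt k))
    · rw [if_pos h3, if_pos ⟨h1, h3⟩]
    · rw [if_neg h3, if_neg (fun hh => h3 hh.2)]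
  · rw [if_neg h1, if_neg (fun hh => h1 hh.1)]

/-- the set of bonds on which `τ` is an exchange move of `σ` -/
private def moves (σ τ : Cfg L) : Finset (Fin L) :=
  Finset.univ.filter (fun k : Fin L =>
    (∀ j, j ≠ k → j ≠ nxt k → σ j = τ j) ∧ Move (σ k) (σ (nxt k)) (τ k) (τ (nxt k)))

private theorem mem_moves (σ τ : Cfg L) (k : Fin L) :
    k ∈ moves σ τ ↔
      (∀ j, j ≠ k → j ≠ nxt k → σ j = τ j) ∧ Move (σ k) (σ (nxt k)) (τ k) (τ (nxt k)) := by
  unfold moves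
  rw [Finset.mem_filter]
  exact ⟨fun hh => hh.2, fun hh => ⟨Finset.mem_univ _, hh⟩⟩

private theorem ham_offdiag (hL : 2 ≤ L) (σ τ : Cfg L) (h : σ ≠ τ) :
    ham L σ τ = (((moves σ τ).card : ℕ) : ℂ) := by
  unfold ham moves
  rw [Matrix.sum_apply]
  rw [Finset.sum_congr rfl (fun k _ => bond_offdiag hL σ τ h k)]
  rw [Finset.sum_boole]

theorem ham_stoq (hL : 2 ≤ L) (hev : Even L) : Stoq (ham L) (msign : Cfg L → ℝ) := by
  refine ⟨msign_sq, ?_⟩
  intro σ τ h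
  rw [ham_offdiag hL σ τ h]
  refine ⟨((moves σ τ).card : ℝ), Nat.cast_nonneg _, ?_⟩
  rcases (moves σ τ).eq_empty_or_nonempty with h0 | ⟨k, hk⟩
  · simp [h0]
  · have hk' := (mem_moves σ τ k).1 hk
    have hm := msign_hop hL hev σ τ k hk'.1 hk'.2
    rw [hm]
    push_cast
    ring

theorem ham_num (hL : 2 ≤ L) (σ τ : Cfg L) (h : ham L σ τ ≠ 0) : num σ = num τ := by
  by_cases hst : σ = τ
  · rw [hst]
  · rw [ham_offdiag hL σ τ hst] at h
    have hc : (moves σ τ).card ≠ 0 := by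
      intro h0
      apply h
      rw [h0]
      simp
    obtain ⟨k, hk⟩ := Finset.card_pos.1 (Nat.pos_of_ne_zero hc)
    have hk' := (mem_moves σ τ k).1 hk
    exact num_hop hL σ τ k hk'.1 hk'.2

theorem ham_hop (hL : 2 ≤ L) (σ τ : Cfg L) (h : Hop σ τ) : ham L σ τ ≠ 0 := by
  obtain ⟨k, h1, h2⟩ := h
  have hst : σ ≠ τ := by
    intro e
    subst e
    rcases h2 with ⟨a, b⟩ | ⟨a, b⟩ <;> omega
  rw [ham_offdiag hL σ τ hst]
  have hk : k ∈ moves σ τ := (mem_moves σ τ k).2 ⟨h1, h2⟩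
  have hpos : 0 < (moves σ τ).card := Finset.card_pos.2 ⟨k, hk⟩
  exact_mod_cast hpos.ne'

end Vale.Agent.Lib.P348
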