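import Vale.Agent.Lib.P348.Tot

namespace Vale.Agent.Lib.P348

open Matrix

variable {L : ℕ}

private theorem S0' : S 0 = Sx := rfl
private theorem S1' : S 1 = Sy := rfl
private theorem S2' : S 2 = Sz := rfl

private theorem comm_yx' : Sy * Sx - Sx * Sy = (-Complex.I) • Sz := by
  rw [← neg_sub, comm_xy, neg_smul]

private theorem comm_zy' : Sz * Sy - Sy * Sz = (-Complex.I) • Sx := by
  rw [← neg_sub, comm_yz, neg_smul]

private theorem comm_xz' : Sx * Sz - Sz * Sx = (-Complex.I) • Sy := by
  rw [← neg_sub, comm_zx, neg_smul]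

private theorem pair_zero (a b : Fin L) (α : Fin 3) :
    (∑ β : Fin 3, site a (S β * S α - S α * S β) * site b (S β))
      + ∑ β : Fin 3, site a (S β) * site b (S β * S α - S α * S β) = 0 := by
  fin_cases α
  · show (∑ β : Fin 3, site a (S β * S 0 - S 0 * S β) * site b (S β))
      + ∑ β : Fin 3, site a (S β) * site b (S β * S 0 - S 0 * S β) = 0
    simp only [Fin.sum_univ_three, S0', S1', S2', sub_self, comm_yx', comm_zx, site_smul,
      site_zero, Matrix.smul_mul, Matrix.mul_smul, zero_mul, mul_zero]
    module
  · show (∑ β : Fin 3, site a (S β * S 1 - S 1 * S β) * site b (S β))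
      + ∑ β : Fin 3, site a (S β) * site b (S β * S 1 - S 1 * S β) = 0
    simp only [Fin.sum_univ_three, S0', S1', S2', sub_self, comm_xy, comm_zy', site_smul,
      site_zero, Matrix.smul_mul, Matrix.mul_smul, zero_mul, mul_zero]
    module
  · show (∑ β : Fin 3, site a (S β * S 2 - S 2 * S β) * site b (S β))
      + ∑ β : Fin 3, site a (S β) * site b (S β * S 2 - S 2 * S β) = 0
    simp only [Fin.sum_univ_three, S0', S1', S2', sub_self, comm_xz', comm_yz, site_smul,
      site_zero, Matrix.smul_mul, Matrix.mul_smul, zero_mul, mul_zero]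
    module

/-- a bond term commutes with the sum of the two spins -/
theorem bond_comm_pair {a b : Fin L} (hab : a ≠ b) (α : Fin 3) :
    bond a b * (site a (S α) + site b (S α)) = (site a (S α) + site b (S α)) * bond a b := by
  have h1 := bond_comm_first hab (S α)
  have h2 := bond_comm_second hab (S α)
  have h3 := pair_zero a b α
  rw [mul_add, add_mul]
  have h4 : bond a b * site a (S α) + bond a b * site b (S α)
      - (site a (S α) * bond a b + site b (S α) * bond a b) = 0 := by
    rw [← h3, ← h1, ← h2]; abel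
  exact sub_eq_zero.1 h4

/-- `SU(2)` invariance: the Hamiltonian commutes with the total spin operators -/
theorem ham_comm_tot (hL : 2 ≤ L) (α : Fin 3) :
    ham L * tot L (S α) = tot L (S α) * ham L := by
  have h : ∀ k : Fin L, bond k (nxt k) * tot L (S α) = tot L (S α) * bond k (nxt k) := by
    intro k
    have hk : k ≠ nxt k := (nxt_ne hL k).symm
    rw [← sub_eq_zero]
    unfold tot
    rw [Finset.mul_sum, Finset.sum_mul, ← Finset.sum_sub_distrib,
      Finset.sum_eq_add k (nxt k) hk]
    · have h5 := bond_comm_pair hk α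
      rw [mul_add, add_mul] at h5
      rw [sub_add_sub_comm, h5, sub_self]
    · intro c _ hc
      exact bond_comm_third hc.1 hc.2 _
    · intro h; exact absurd (Finset.mem_univ _) h
    · intro h; exact absurd (Finset.mem_univ _) h
  unfold ham
  rw [Finset.sum_mul, Finset.mul_sum]
  exact Finset.sum_congr rfl fun k _ => h k

theorem ham_comm_tot_Sp (hL : 2 ≤ L) : ham L * tot L Sp = tot L Sp * ham L := by
  have hx : ham L * tot L Sx = tot L Sx * ham L := ham_comm_tot hL 0
  have hy : ham L * tot L Sy = tot L Sy * ham L := ham_comm_tot hL 1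
  unfold Sp
  rw [tot_add, tot_smul, mul_add, add_mul, Matrix.mul_smul, Matrix.smul_mul, hx, hy]

theorem ham_comm_tot_Sm (hL : 2 ≤ L) : ham L * tot L Sm = tot L Sm * ham L := by
  have hx : ham L * tot L Sx = tot L Sx * ham L := ham_comm_tot hL 0
  have hy : ham L * tot L Sy = tot L Sy * ham L := ham_comm_tot hL 1
  unfold Sm
  rw [tot_sub, tot_smul, mul_sub, sub_mul, Matrix.mul_smul, Matrix.smul_mul, hx, hy]

end Vale.Agent.Lib.P348
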