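import Vale.Agent.Lib.P348.PF3
import Vale.Agent.Lib.P348.Offdiag
import Vale.Agent.Lib.P348.Conn
import Vale.Agent.Lib.P348.TotHam
import Vale.Agent.Lib.P348.Lower
import Vale.Agent.Lib.P348.Exist
import Vale.Agent.Lib.P348.Bounds

namespace Vale.Agent.Lib.P348

open Matrix

variable {L : ℕ}

theorem ham_conn (hL : 2 ≤ L) (σ τ : Cfg L) (h : num σ = num τ) :
    Relation.ReflTransGen (fun a b => ham L a b ≠ 0) σ τ :=
  Relation.ReflTransGen.mono (fun a b hab => ham_hop hL a b hab) _ _ (hop_conn σ τ h)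

/-- there is no ground vector in a sector of positive total magnetisation -/
theorem no_low_sector (hL : 2 ≤ L) (hev : Even L) (E0 : ℝ) (hlow : LowerBd (ham L) E0)
    (ψ : Cfg L → ℂ) (hψ : ham L *ᵥ ψ = (E0 : ℂ) • ψ) (N : ℕ) (hN : N < L)
    (hsupp : ∀ σ, num σ ≠ N → ψ σ = 0) : ψ = 0 := by
  by_contra hne
  have hH := ham_herm hL
  have hS := ham_stoq hL hev
  obtain ⟨σ0, hσ0⟩ : ∃ σ0, ψ σ0 ≠ 0 := by
    by_contra h
    exact hne (funext fun σ => by_contra fun h' => h ⟨σ, h'⟩)
  have hnum0 : num σ0 = N := by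
    by_contra h
    exact hσ0 (hsupp σ0 h)
  -- `ψ` vanishes nowhere in the sector
  have hpos : ∀ τ : Cfg L, num τ = N → 0 < ‖ψ τ‖ := by
    intro τ hτ
    rw [norm_pos_iff]
    intro h0
    exact hσ0 (ground_zero_conn (ham L) hH msign hS E0 hlow ψ hψ τ σ0
      (ham_conn hL τ σ0 (hτ.trans hnum0.symm)) h0)
  set f : Cfg L → ℝ := fun τ => ‖ψ τ‖ with hf
  have hφ := abs_ground (ham L) hH msign hS E0 hlow ψ hψ
  set φ : Cfg L → ℂ := fun σ => ((msign σ * ‖ψ σ‖ : ℝ) : ℂ) with hφdef
  set χ : Cfg L → ℂ := tot L Sm *ᵥ φ with hχdef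
  have hχ : ham L *ᵥ χ = (E0 : ℂ) • χ := by
    rw [hχdef, Matrix.mulVec_mulVec, ham_comm_tot_Sm hL, ← Matrix.mulVec_mulVec, hφ,
      Matrix.mulVec_smul]
  obtain ⟨σA, hA1, hA2⟩ := exists_cfg_even hev (N + 1) (by omega)
  obtain ⟨σB, hB1, hB2⟩ := exists_cfg_odd hev (N + 1) (by omega)
  obtain ⟨x, hx, hr2⟩ := r2_pos
  set a : ℝ := ∑ j : Fin L, ∑ s : Fin 3,
    (if s.val + 1 = (σA j).val then f (Function.update σA j s) else 0) with ha
  set b : ℝ := ∑ j : Fin L, ∑ s : Fin 3,
    (if s.val + 1 = (σB j).val then f (Function.update σB j s) else 0) with hb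
  have hapos : 0 < a := lower_sum_pos f N (fun τ => norm_nonneg _) hpos σA hA1
  have hbpos : 0 < b := lower_sum_pos f N (fun τ => norm_nonneg _) hpos σB hB1
  have hχA : χ σA = ((2 * x * (msign σA * a) : ℝ) : ℂ) := by
    rw [hχdef, hφdef, tot_Sm_even f σA hA2, ← ha, hr2]
    push_cast
    ring
  have hχB : χ σB = ((-(2 * x * (msign σB * b)) : ℝ) : ℂ) := by
    rw [hχdef, hφdef, tot_Sm_odd f σB hB2, ← hb, hr2]
    push_cast
    ring
  have hχabs := abs_ground (ham L) hH msign hS E0 hlow χ hχ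
  have hprop := ground_prop (ham L) hH msign hS E0 hlow χ _ hχ hχabs σA σB
    (ham_conn hL σA σB (hA1.trans hB1.symm))
  have hmA : msign σA * msign σA = 1 := by
    rcases msign_sq σA with h | h <;> rw [h] <;> norm_num
  have hmB : msign σB * msign σB = 1 := by
    rcases msign_sq σB with h | h <;> rw [h] <;> norm_num
  have hnA : ‖χ σA‖ = 2 * x * a := by
    rw [hχA, Complex.norm_real, Real.norm_eq_abs, abs_mul, abs_mul, abs_mul]
    have : |msign σA| = 1 := by
      rcases msign_sq σA with h | h <;> rw [h] <;> norm_num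
    rw [this, abs_of_pos hx, abs_of_pos hapos]
    norm_num
  have hnB : ‖χ σB‖ = 2 * x * b := by
    rw [hχB, Complex.norm_real, Real.norm_eq_abs, abs_neg, abs_mul, abs_mul, abs_mul]
    have : |msign σB| = 1 := by
      rcases msign_sq σB with h | h <;> rw [h] <;> norm_num
    rw [this, abs_of_pos hx, abs_of_pos hbpos]
    norm_num
  simp only [hnA, hnB] at hprop
  rw [hχA, hχB] at hprop
  have hreal : (msign σA * (2 * x * a)) * (-(2 * x * (msign σB * b)))
      = (2 * x * (msign σA * a)) * (msign σB * (2 * x * b)) := by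
    exact_mod_cast hprop
  have hz : msign σA * msign σB * (x * x * a * b) = 0 := by nlinarith
  have hz2 : x * x * a * b = 0 := by
    have : (msign σA * msign σA) * (msign σB * msign σB) * (x * x * a * b) = 0 := by
      calc _ = (msign σA * msign σB) * (msign σA * msign σB * (x * x * a * b)) := by ring
        _ = 0 := by rw [hz, mul_zero]
    rwa [hmA, hmB, one_mul, one_mul] at this
  have : 0 < x * x * a * b := by positivity
  linarith

end Vale.Agent.Lib.P348
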