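import Vale.Agent.Lib.P348.Defs2
import Vale.Agent.Lib.P348.Moments

namespace Vale.Agent.Lib.P348

open Matrix
open scoped ComplexOrder

variable {n : Type*} [Fintype n] [DecidableEq n]

private lemma shift_expand (H : Matrix n n ℂ) (E0 : ℝ) (x : n → ℂ) :
    star x ⬝ᵥ ((H - (E0 : ℂ) • (1 : Matrix n n ℂ)) *ᵥ x)
      = star x ⬝ᵥ (H *ᵥ x) - (E0 : ℂ) * (star x ⬝ᵥ x) := by
  rw [Matrix.sub_mulVec, Matrix.smul_mulVec, Matrix.one_mulVec, dotProduct_sub, dotProduct_smul,
    smul_eq_mul]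

omit [Fintype n] in
private lemma shift_herm (H : Matrix n n ℂ) (hH : H.IsHermitian) (E0 : ℝ) :
    (H - (E0 : ℂ) • (1 : Matrix n n ℂ)).IsHermitian := by
  refine hH.sub ?_
  unfold Matrix.IsHermitian
  rw [Matrix.conjTranspose_smul, Matrix.conjTranspose_one]
  simp

/-- equality in the variational principle forces an eigenvector -/
theorem eig_of_expect_le (H : Matrix n n ℂ) (hH : H.IsHermitian) (E0 : ℝ) (hlow : LowerBd H E0)
    (v : n → ℂ) (h : (star v ⬝ᵥ (H *ᵥ v)).re ≤ E0 * (star v ⬝ᵥ v).re) :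
    H *ᵥ v = (E0 : ℂ) • v := by
  have hT := shift_herm H hH E0
  have him : ∀ x : n → ℂ,
      (star x ⬝ᵥ ((H - (E0 : ℂ) • (1 : Matrix n n ℂ)) *ᵥ x)).im = 0 := fun x => by
    simpa using hT.im_star_dotProduct_mulVec_self x
  have hre : ∀ x : n → ℂ,
      (star x ⬝ᵥ ((H - (E0 : ℂ) • (1 : Matrix n n ℂ)) *ᵥ x)).re
        = (star x ⬝ᵥ (H *ᵥ x)).re - E0 * (star x ⬝ᵥ x).re := fun x => by
    rw [shift_expand]
    simp
  have hpos : (H - (E0 : ℂ) • (1 : Matrix n n ℂ)).PosSemidef := by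
    refine Matrix.PosSemidef.of_dotProduct_mulVec_nonneg hT fun x => ?_
    rw [Complex.le_def]
    refine ⟨?_, ?_⟩
    · rw [hre x]
      have := hlow x
      simp only [Complex.zero_re]
      linarith
    · rw [him x]
      simp
  have hz : star v ⬝ᵥ ((H - (E0 : ℂ) • (1 : Matrix n n ℂ)) *ᵥ v) = 0 := by
    apply Complex.ext
    · rw [hre v]
      have := hlow v
      simp only [Complex.zero_re]
      linarith
    · rw [him v]
      simp
  have hk := (hpos.dotProduct_mulVec_zero_iff v).1 hz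
  rw [Matrix.sub_mulVec, Matrix.smul_mulVec, Matrix.one_mulVec] at hk
  exact sub_eq_zero.1 hk

end Vale.Agent.Lib.P348
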