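import Vale.Agent.Lib.P348.PF0

namespace Vale.Agent.Lib.P348

open Matrix

variable {n : Type*} [Fintype n] [DecidableEq n]

private lemma diag_term (z h : ℂ) : (star z * (h * z)).re = h.re * ‖z‖ ^ 2 := by
  have h1 : star z * (h * z) = h * ((Complex.normSq z : ℝ) : ℂ) := by
    rw [Complex.normSq_eq_conj_mul_self, Complex.star_def]
    ring
  rw [h1, Complex.re_mul_ofReal, Complex.normSq_eq_norm_sq]

private lemma off_term (z w : ℂ) (c : ℝ) :
    (star z * ((c : ℂ) * w)).re = c * (star z * w).re := by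
  have h1 : star z * ((c : ℂ) * w) = (c : ℂ) * (star z * w) := by ring
  rw [h1, Complex.re_ofReal_mul]

private lemma re_star_mul_abs_le (z w : ℂ) : |(star z * w).re| ≤ ‖z‖ * ‖w‖ := by
  have h1 := Complex.abs_re_le_norm (star z * w)
  rw [norm_mul, norm_star] at h1
  exact h1

/-- if `ψ` is a ground vector then so is `ε |ψ|` -/
theorem abs_ground (H : Matrix n n ℂ) (hH : H.IsHermitian) (ε : n → ℝ) (hS : Stoq H ε) (E0 : ℝ)
    (hlow : LowerBd H E0) (ψ : n → ℂ) (hψ : H *ᵥ ψ = (E0 : ℂ) • ψ) :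
    H *ᵥ (fun σ => ((ε σ * ‖ψ σ‖ : ℝ) : ℂ)) = (E0 : ℂ) • (fun σ => ((ε σ * ‖ψ σ‖ : ℝ) : ℂ)) := by
  set φ : n → ℂ := fun σ => ((ε σ * ‖ψ σ‖ : ℝ) : ℂ) with hφ
  apply eig_of_expect_le H hH E0 hlow φ
  have hε2 : ∀ σ, ε σ * ε σ = 1 := by
    intro σ
    rcases hS.1 σ with h | h <;> rw [h] <;> norm_num
  have hexp : ∀ x : n → ℂ,
      (star x ⬝ᵥ (H *ᵥ x)).re = ∑ σ, ∑ τ, (star (x σ) * (H σ τ * x τ)).re := by
    intro x
    simp only [dotProduct, mulVec, Pi.star_apply, Finset.mul_sum, Complex.re_sum]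
  have hnorm : ∀ x : n → ℂ, (star x ⬝ᵥ x).re = ∑ σ, ‖x σ‖ ^ 2 := by
    intro x
    simp only [dotProduct, Pi.star_apply, Complex.re_sum]
    apply Finset.sum_congr rfl
    intro σ _
    have := diag_term (x σ) 1
    rw [one_mul, Complex.one_re, one_mul] at this
    exact this
  have hφn : ∀ σ, ‖φ σ‖ ^ 2 = ‖ψ σ‖ ^ 2 := by
    intro σ
    simp only [hφ]
    rw [Complex.norm_real, Real.norm_eq_abs, sq_abs, mul_pow, sq (ε σ), hε2, one_mul]
  have h1 : (star φ ⬝ᵥ φ).re = (star ψ ⬝ᵥ ψ).re := by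
    rw [hnorm, hnorm]
    exact Finset.sum_congr rfl fun σ _ => hφn σ
  have h2 : (star ψ ⬝ᵥ (H *ᵥ ψ)).re = E0 * (star ψ ⬝ᵥ ψ).re := by
    rw [hψ, dotProduct_smul, smul_eq_mul, Complex.re_ofReal_mul]
  have h3 : (star φ ⬝ᵥ (H *ᵥ φ)).re ≤ (star ψ ⬝ᵥ (H *ᵥ ψ)).re := by
    rw [hexp, hexp]
    apply Finset.sum_le_sum
    intro σ _
    apply Finset.sum_le_sum
    intro τ _
    by_cases hst : σ = τ
    · subst hst
      rw [diag_term, diag_term, hφn]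
    · obtain ⟨r, hr, hH'⟩ := hS.2 σ τ hst
      rw [hH', off_term, off_term]
      have hR := abs_le.1 (re_star_mul_abs_le (ψ σ) (ψ τ))
      have hP : (star (φ σ) * φ τ).re = ε σ * ‖ψ σ‖ * (ε τ * ‖ψ τ‖) := by
        simp only [hφ]
        rw [Complex.star_def, Complex.conj_ofReal, ← Complex.ofReal_mul, Complex.ofReal_re]
      rw [hP]
      set R := (star (ψ σ) * ψ τ).re
      set P := ‖ψ σ‖ * ‖ψ τ‖ with hPdef
      have hL : -(ε σ * ε τ * r) * (ε σ * ‖ψ σ‖ * (ε τ * ‖ψ τ‖)) = -(r * P) := by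
        have : -(ε σ * ε τ * r) * (ε σ * ‖ψ σ‖ * (ε τ * ‖ψ τ‖))
            = -((ε σ * ε σ) * (ε τ * ε τ) * (r * (‖ψ σ‖ * ‖ψ τ‖))) := by ring
        rw [this, hε2, hε2, one_mul, one_mul]
      rw [hL]
      have h4 : r * R ≤ r * P := mul_le_mul_of_nonneg_left hR.2 hr
      have h5 : r * (-P) ≤ r * R := mul_le_mul_of_nonneg_left hR.1 hr
      rcases hS.1 σ with hs | hs <;> rcases hS.1 τ with ht | ht <;> rw [hs, ht] <;> nlinarith
  rw [h1, ← h2]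
  exact h3

end Vale.Agent.Lib.P348
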