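import Vale.Agent.Lib.P348.Defs2

namespace Vale.Agent.Lib.P348

open Matrix

variable {n : Type*} [Fintype n] [DecidableEq n]

/-- zeros of a sign-definite eigenvector propagate along nonzero matrix entries -/
theorem zero_prop (H : Matrix n n ℂ) (ε : n → ℝ) (hS : Stoq H ε) (E0 : ℝ) (f : n → ℝ)
    (hf : ∀ σ, 0 ≤ f σ)
    (hg : H *ᵥ (fun σ => ((ε σ * f σ : ℝ) : ℂ)) = (E0 : ℂ) • (fun σ => ((ε σ * f σ : ℝ) : ℂ)))
    (σ τ : n) (hσ : f σ = 0) (hστ : H σ τ ≠ 0) : f τ = 0 := by
  classical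
  by_cases hne : σ = τ
  · rw [← hne]
    exact hσ
  choose r hr0 hr using hS.2
  have h1 := congrFun hg σ
  simp only [Matrix.mulVec, dotProduct, Pi.smul_apply, smul_eq_mul] at h1
  rw [hσ, mul_zero, Complex.ofReal_zero, mul_zero] at h1
  let R : n → ℝ := fun t => if h : σ = t then 0 else r σ t h * f t
  have hterm : ∀ t, H σ t * ((ε t * f t : ℝ) : ℂ) = ((-(ε σ) * R t : ℝ) : ℂ) := by
    intro t
    by_cases h : σ = t
    · subst h
      simp [R, hσ]
    · simp only [R, dif_neg h]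
      rw [hr σ t h, ← Complex.ofReal_mul]
      congr 1
      have h2 : ε t * ε t = 1 := by
        rcases hS.1 t with h | h <;> rw [h] <;> norm_num
      calc -(ε σ * ε t * r σ t h) * (ε t * f t)
          = -(ε σ) * (r σ t h * f t) * (ε t * ε t) := by ring
        _ = -(ε σ) * (r σ t h * f t) := by rw [h2, mul_one]
  have h2 : ∑ t, ((-(ε σ) * R t : ℝ) : ℂ) = 0 := by
    rw [← h1]
    exact Finset.sum_congr rfl (fun t _ => (hterm t).symm)
  have h3 : -(ε σ) * ∑ t, R t = 0 := by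
    rw [Finset.mul_sum]
    exact_mod_cast h2
  have hε : -(ε σ) ≠ 0 := by
    rcases hS.1 σ with h | h <;> rw [h] <;> norm_num
  have h4 : ∑ t, R t = 0 := (mul_eq_zero.mp h3).resolve_left hε
  have hRnn : ∀ t ∈ Finset.univ, 0 ≤ R t := by
    intro t _
    simp only [R]
    split_ifs with h
    · exact le_rfl
    · exact mul_nonneg (hr0 σ t h) (hf t)
  have h5 := (Finset.sum_eq_zero_iff_of_nonneg hRnn).mp h4 τ (Finset.mem_univ _)
  simp only [R, dif_neg hne] at h5
  rcases mul_eq_zero.mp h5 with h | h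
  · exfalso
    apply hστ
    rw [hr σ τ hne, h]
    simp
  · exact h

end Vale.Agent.Lib.P348
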