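import Vale.Agent.Lib.P348.PF1
import Vale.Agent.Lib.P348.PF2

namespace Vale.Agent.Lib.P348

open Matrix

variable {n : Type*} [Fintype n] [DecidableEq n]

theorem ground_zero_conn (H : Matrix n n ℂ) (hH : H.IsHermitian) (ε : n → ℝ) (hS : Stoq H ε)
    (E0 : ℝ) (hlow : LowerBd H E0) (ψ : n → ℂ) (hψ : H *ᵥ ψ = (E0 : ℂ) • ψ) (σ τ : n)
    (hc : Relation.ReflTransGen (fun a b => H a b ≠ 0) σ τ) (h0 : ψ σ = 0) : ψ τ = 0 := by
  induction hc with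
  | refl => exact h0
  | tail _ hbc ih =>
    have h1 := zero_prop H ε hS E0 (fun s => ‖ψ s‖) (fun s => norm_nonneg _)
      (abs_ground H hH ε hS E0 hlow ψ hψ) _ _ (by simpa using ih) hbc
    exact norm_eq_zero.1 h1

theorem ground_prop (H : Matrix n n ℂ) (hH : H.IsHermitian) (ε : n → ℝ) (hS : Stoq H ε)
    (E0 : ℝ) (hlow : LowerBd H E0) (ψ ψ' : n → ℂ) (hψ : H *ᵥ ψ = (E0 : ℂ) • ψ)
    (hψ' : H *ᵥ ψ' = (E0 : ℂ) • ψ') (σ τ : n)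
    (hc : Relation.ReflTransGen (fun a b => H a b ≠ 0) σ τ) :
    ψ' σ * ψ τ = ψ σ * ψ' τ := by
  have hχ : H *ᵥ (ψ' σ • ψ - ψ σ • ψ') = (E0 : ℂ) • (ψ' σ • ψ - ψ σ • ψ') := by
    rw [mulVec_sub, mulVec_smul, mulVec_smul, hψ, hψ', smul_sub, smul_comm (ψ' σ), smul_comm (ψ σ)]
  have h0 : (ψ' σ • ψ - ψ σ • ψ') σ = 0 := by
    simp only [Pi.sub_apply, Pi.smul_apply, smul_eq_mul]
    ring
  have h1 := ground_zero_conn H hH ε hS E0 hlow _ hχ σ τ hc h0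
  simp only [Pi.sub_apply, Pi.smul_apply, smul_eq_mul] at h1
  exact sub_eq_zero.1 h1

end Vale.Agent.Lib.P348
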