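import Vale.Agent.Lib.P348.Moments

namespace Vale.Agent.Lib.P348

open Matrix

private theorem expand_sq {n : Type*} [Fintype n] (w v : n → ℂ) (a : ℝ) :
    (star (w - (a : ℂ) • v) ⬝ᵥ (w - (a : ℂ) • v)).re =
      (star w ⬝ᵥ w).re - 2 * a * (star v ⬝ᵥ w).re + a ^ 2 * (star v ⬝ᵥ v).re := by
  simp only [dotProduct, Complex.re_sum, Finset.mul_sum]
  rw [← Finset.sum_sub_distrib, ← Finset.sum_add_distrib]
  refine Finset.sum_congr rfl fun i _ => ?_
  simp only [Pi.star_apply, Pi.sub_apply, Pi.smul_apply, smul_eq_mul, RCLike.star_def, map_sub,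
    map_mul, Complex.conj_ofReal, Complex.mul_re, Complex.sub_re, Complex.sub_im, Complex.conj_re,
    Complex.conj_im, Complex.ofReal_re, Complex.ofReal_im, Complex.mul_im]
  ring

private theorem self_pos {n : Type*} [Fintype n] {v : n → ℂ} (hv : v ≠ 0) :
    0 < (star v ⬝ᵥ v).re := by
  have e : (star v ⬝ᵥ v).re = ∑ i, Complex.normSq (v i) := by
    simp only [dotProduct, Complex.re_sum]
    refine Finset.sum_congr rfl fun i _ => ?_
    simp only [Pi.star_apply, RCLike.star_def, Complex.mul_re, Complex.conj_re, Complex.conj_im,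
      Complex.normSq_apply]
    ring
  rw [e]
  obtain ⟨i, hi⟩ : ∃ i, v i ≠ 0 := by
    by_contra h
    apply hv
    funext i
    by_contra hi
    exact h ⟨i, hi⟩
  exact Finset.sum_pos' (fun j _ => Complex.normSq_nonneg _)
    ⟨i, Finset.mem_univ i, Complex.normSq_pos.2 hi⟩

theorem spectral_pack {n : Type*} [Fintype n] [DecidableEq n] [Nonempty n] (H : Matrix n n ℂ)
    (hH : H.IsHermitian) :
    ∃ E0 : ℝ, IsLeast {x | IsEig H x} E0 ∧
      (∀ v : n → ℂ, E0 * (star v ⬝ᵥ v).re ≤ (star v ⬝ᵥ (H *ᵥ v)).re) ∧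
      ((∃ v : n → ℂ, E0 * (star v ⬝ᵥ v).re < (star v ⬝ᵥ (H *ᵥ v)).re) →
        ∃ E1, IsLeast {x | IsEig H x ∧ x ≠ E0} E1) ∧
      (∀ g : ℝ, (∀ x, IsEig H x → x = E0 ∨ E0 + g ≤ x) → ∀ v : n → ℂ,
        g * ((star v ⬝ᵥ (H *ᵥ v)).re - E0 * (star v ⬝ᵥ v).re) ≤
          (star (H *ᵥ v - (E0 : ℂ) • v) ⬝ᵥ (H *ᵥ v - (E0 : ℂ) • v)).re) := by
  obtain ⟨μ, c, hμ, hc, h0, h1, h2⟩ := moments H hH
  -- the shifted second moment
  have hshift : ∀ (v : n → ℂ) (a : ℝ),
      (star (H *ᵥ v - (a : ℂ) • v) ⬝ᵥ (H *ᵥ v - (a : ℂ) • v)).re = ∑ i, (μ i - a) ^ 2 * c v i := by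
    intro v a
    rw [expand_sq, h2, h1, h0 v, Finset.mul_sum, Finset.mul_sum, ← Finset.sum_sub_distrib,
      ← Finset.sum_add_distrib]
    refine Finset.sum_congr rfl fun i _ => ?_
    ring
  have key : ∀ x, IsEig H x → ∃ i, μ i = x := by
    rintro x ⟨v, hv, hHv⟩
    have hz : ∑ i, (μ i - x) ^ 2 * c v i = 0 := by
      rw [← hshift, hHv, sub_self]
      simp
    have hterm : ∀ i ∈ Finset.univ, (μ i - x) ^ 2 * c v i = 0 :=
      (Finset.sum_eq_zero_iff_of_nonneg fun i _ => mul_nonneg (sq_nonneg _) (hc v i)).1 hz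
    have hpos : 0 < ∑ i, c v i := by rw [← h0]; exact self_pos hv
    obtain ⟨i, _, hi⟩ := Finset.exists_lt_of_sum_lt (s := Finset.univ) (f := fun _ => (0 : ℝ))
      (g := fun i => c v i) (by simpa using hpos)
    refine ⟨i, ?_⟩
    have := hterm i (Finset.mem_univ i)
    rcases mul_eq_zero.1 this with h | h
    · have := pow_eq_zero_iff (two_ne_zero) |>.1 h
      linarith
    · exact absurd h hi.ne'
  obtain ⟨i0, hi0⟩ := Finite.exists_min μ
  refine ⟨μ i0, ⟨hμ i0, ?_⟩, ?_, ?_, ?_⟩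
  · intro x hx
    obtain ⟨i, rfl⟩ := key x hx
    exact hi0 i
  · intro v
    rw [h0, h1, Finset.mul_sum]
    exact Finset.sum_le_sum fun i _ => mul_le_mul_of_nonneg_right (hi0 i) (hc v i)
  · rintro ⟨v, hv⟩
    have hex : ∃ i, μ i ≠ μ i0 := by
      by_contra h
      have h' : ∀ i, μ i = μ i0 := fun i => by
        by_contra hi
        exact h ⟨i, hi⟩
      rw [h0, h1, Finset.mul_sum] at hv
      apply lt_irrefl (∑ i, μ i0 * c v i)
      calc ∑ i, μ i0 * c v i < ∑ i, μ i * c v i := hv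
        _ = ∑ i, μ i0 * c v i := Finset.sum_congr rfl fun i _ => by rw [h' i]
    obtain ⟨j, hj⟩ := hex
    have hS : (Finset.univ.filter fun i => μ i ≠ μ i0).Nonempty :=
      ⟨j, Finset.mem_filter.2 ⟨Finset.mem_univ j, hj⟩⟩
    obtain ⟨i1, hi1, hmin⟩ := Finset.exists_min_image _ μ hS
    refine ⟨μ i1, ⟨hμ i1, (Finset.mem_filter.1 hi1).2⟩, ?_⟩
    rintro x ⟨hx, hxne⟩
    obtain ⟨i, rfl⟩ := key x hx
    exact hmin i (Finset.mem_filter.2 ⟨Finset.mem_univ i, hxne⟩)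
  · intro g hg v
    rw [hshift, h0, h1, Finset.mul_sum, ← Finset.sum_sub_distrib, Finset.mul_sum]
    refine Finset.sum_le_sum fun i _ => ?_
    have hci := hc v i
    have h3 : g * (μ i - μ i0) ≤ (μ i - μ i0) ^ 2 := by
      rcases hg (μ i) (hμ i) with h | h
      · rw [h]; simp
      · have h4 : 0 ≤ μ i - μ i0 := by linarith [hi0 i]
        nlinarith
    calc g * (μ i * c v i - μ i0 * c v i) = (g * (μ i - μ i0)) * c v i := by ring
      _ ≤ (μ i - μ i0) ^ 2 * c v i := mul_le_mul_of_nonneg_right h3 hci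

end Vale.Agent.Lib.P348
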