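import Vale.Agent.Lib.P348.Defs

namespace Vale.Agent.Lib.P348

open Matrix

variable {L : ℕ}

theorem site_zero (j : Fin L) : site j 0 = 0 := by
  ext σ τ
  simp [site]

theorem site_one (j : Fin L) : site j 1 = 1 := by
  ext σ τ
  simp only [site, Matrix.one_apply]
  by_cases h : σ = τ
  · subst h
    simp
  · rw [if_neg h]
    split_ifs with h1 h2
    · exfalso
      apply h
      funext k
      by_cases hk : k = j
      · subst hk; exact h2
      · exact h1 k hk
    · rfl
    · rfl

theorem site_add (j : Fin L) (A B : Matrix (Fin 3) (Fin 3) ℂ) :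
    site j (A + B) = site j A + site j B := by
  ext σ τ
  simp only [site, Matrix.add_apply]
  split_ifs <;> simp

theorem site_sub (j : Fin L) (A B : Matrix (Fin 3) (Fin 3) ℂ) :
    site j (A - B) = site j A - site j B := by
  ext σ τ
  simp only [site, Matrix.sub_apply]
  split_ifs <;> simp

theorem site_smul (j : Fin L) (c : ℂ) (A : Matrix (Fin 3) (Fin 3) ℂ) :
    site j (c • A) = c • site j A := by
  ext σ τ
  simp only [site, Matrix.smul_apply]
  split_ifs <;> simp

theorem site_conjTranspose (j : Fin L) (A : Matrix (Fin 3) (Fin 3) ℂ) :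
    (site j A)ᴴ = site j Aᴴ := by
  ext σ τ
  simp only [site, Matrix.conjTranspose_apply]
  by_cases h : ∀ k, k ≠ j → σ k = τ k
  · have h' : ∀ k, k ≠ j → τ k = σ k := fun k hk => (h k hk).symm
    rw [if_pos h, if_pos h']
  · have h' : ¬ ∀ k, k ≠ j → τ k = σ k := fun h2 => h fun k hk => (h2 k hk).symm
    rw [if_neg h, if_neg h']
    simp

theorem site_mul (j : Fin L) (A B : Matrix (Fin 3) (Fin 3) ℂ) :
    site j (A * B) = site j A * site j B := by
  ext σ τ
  rw [Matrix.mul_apply]
  by_cases h : ∀ k, k ≠ j → σ k = τ k
  · have hl : site j (A * B) σ τ = ∑ s : Fin 3, A (σ j) s * B s (τ j) := by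
      simp only [site]
      rw [if_pos h, Matrix.mul_apply]
    rw [hl]
    -- the only contributing intermediate configurations are `update σ j s`
    have hinj : Function.Injective (fun s : Fin 3 => Function.update σ j s) := by
      intro s t hst
      have := congrFun hst j
      simpa using this
    have hsum : ∑ ρ : Cfg L, site j A σ ρ * site j B ρ τ
        = ∑ ρ ∈ Finset.univ.image (fun s : Fin 3 => Function.update σ j s),
            site j A σ ρ * site j B ρ τ := by
      symm
      apply Finset.sum_subset (Finset.subset_univ _)
      intro ρ _ hρ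
      have hne : ¬ ∀ k, k ≠ j → σ k = ρ k := by
        intro h2
        apply hρ
        rw [Finset.mem_image]
        refine ⟨ρ j, Finset.mem_univ _, ?_⟩
        funext k
        by_cases hk : k = j
        · subst hk; simp
        · simp [Function.update_of_ne hk, h2 k hk]
      simp only [site]
      rw [if_neg hne, zero_mul]
    rw [hsum, Finset.sum_image (fun a _ b _ hab => hinj hab)]
    apply Finset.sum_congr rfl
    intro s _
    have h1 : ∀ k, k ≠ j → σ k = Function.update σ j s k := by
      intro k hk
      rw [Function.update_of_ne hk]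
    have h2 : ∀ k, k ≠ j → Function.update σ j s k = τ k := by
      intro k hk
      rw [Function.update_of_ne hk]
      exact h k hk
    simp only [site]
    rw [if_pos h1, if_pos h2, Function.update_self]
  · have hl : site j (A * B) σ τ = 0 := by
      simp only [site]
      rw [if_neg h]
    rw [hl]
    symm
    apply Finset.sum_eq_zero
    intro ρ _
    simp only [site]
    by_cases h1 : ∀ k, k ≠ j → σ k = ρ k
    · have h2 : ¬ ∀ k, k ≠ j → ρ k = τ k := by
        intro h2
        exact h fun k hk => (h1 k hk).trans (h2 k hk)
      rw [if_neg h2, mul_zero]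
    · rw [if_neg h1, zero_mul]

end Vale.Agent.Lib.P348
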