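import Vale.Agent.Lib.P348.Defs2
import Vale.Agent.Lib.P348.SiteComm
import Vale.Agent.Lib.P348.Spin

namespace Vale.Agent.Lib.P348

open Matrix

variable {L : ℕ}

theorem bond_apply {a b : Fin L} (hab : a ≠ b) (σ τ : Cfg L) :
    bond a b σ τ =
      if ∀ k, k ≠ a → k ≠ b → σ k = τ k then Q (σ a) (σ b) (τ a) (τ b) else 0 := by
  unfold bond
  rw [Matrix.sum_apply]
  simp only [site_mul_site_apply hab]
  by_cases h : ∀ k, k ≠ a → k ≠ b → σ k = τ k
  · simp only [if_pos h]
    rfl
  · simp only [if_neg h]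
    simp

private theorem fin3 (s : Fin 3) : s = 0 ∨ s = 1 ∨ s = 2 := by
  revert s
  decide

private theorem Q_eq (s t s' t' : Fin 3) :
    Q s t s' t' = Sx s s' * Sx t t' + Sy s s' * Sy t t' + Sz s s' * Sz t t' := by
  unfold Q
  rw [Fin.sum_univ_three]
  rfl

private theorem aux1 : r2 * r2 + Complex.I * r2 * (Complex.I * r2) = 0 := by
  linear_combination (r2 * r2) * Complex.I_mul_I

private theorem aux2 : r2 * r2 + -(Complex.I * r2 * (Complex.I * r2)) = 1 := by
  linear_combination 2 * r2_mul_r2 - (r2 * r2) * Complex.I_mul_I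

/-- the 81 entries of the two-site bond matrix -/
theorem Q_table (s t s' t' : Fin 3) :
    Q s t s' t' =
      if s = s' ∧ t = t' then (((1 - (s.val : ℤ)) * (1 - (t.val : ℤ)) : ℤ) : ℂ)
      else if Move s t s' t' then 1 else 0 := by
  rw [Q_eq]
  rcases fin3 s with rfl | rfl | rfl <;> rcases fin3 t with rfl | rfl | rfl <;>
    rcases fin3 s' with rfl | rfl | rfl <;> rcases fin3 t' with rfl | rfl | rfl <;>
    simp [Move, Sx, Sy, Sz, aux1, aux2]

theorem Q_rev (s t s' t' : Fin 3) :
    Q (Fin.rev s) (Fin.rev t) (Fin.rev s') (Fin.rev t') = Q s t s' t' := by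
  rw [Q_table, Q_table]
  rcases fin3 s with rfl | rfl | rfl <;> rcases fin3 t with rfl | rfl | rfl <;>
    rcases fin3 s' with rfl | rfl | rfl <;> rcases fin3 t' with rfl | rfl | rfl <;>
    simp [Move, Fin.rev]

end Vale.Agent.Lib.P348
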