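import Vale.Agent.Lib.P348.TotHam
import Vale.Agent.Lib.P348.Ring

namespace Vale.Agent.Lib.P348

open Matrix

variable {L : ℕ}

/-- the mixed double commutator `[A, [H, B]]` -/
def dc2 {n : Type*} [Fintype n] (H A B : Matrix n n ℂ) : Matrix n n ℂ :=
  A * (H * B - B * H) - (H * B - B * H) * A

/-- the three-site operator `S^α_j - t S^α_{j+1} + S^α_{j+2}` -/
noncomputable def A3 (t : ℝ) (j : Fin L) (α : Fin 3) : Matrix (Cfg L) (Cfg L) ℂ :=
  site j (S α) - (t : ℂ) • site (nxt j) (S α) + site (nxt (nxt j)) (S α)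

/-- the three-site operator `S^α_j + u S^α_{j+1} + S^α_{j+2}` -/
noncomputable def B3 (u : ℝ) (j : Fin L) (α : Fin 3) : Matrix (Cfg L) (Cfg L) ℂ :=
  site j (S α) + (u : ℂ) • site (nxt j) (S α) + site (nxt (nxt j)) (S α)

theorem dc2_self {n : Type*} [Fintype n] (H A : Matrix n n ℂ) : dc2 H A A = dc H A := rfl

theorem dc2_sum {n ι : Type*} [Fintype n] (s : Finset ι) (H : ι → Matrix n n ℂ)
    (A B : Matrix n n ℂ) : dc2 (∑ k ∈ s, H k) A B = ∑ k ∈ s, dc2 (H k) A B := by
  simp only [dc2, Finset.sum_mul, Finset.mul_sum, ← Finset.sum_sub_distrib]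

/-- expansion of the double commutator of `X - c Y + Z` -/
theorem dc_three {n : Type*} [Fintype n] (H X Y Z : Matrix n n ℂ) (c : ℂ) :
    dc H (X - c • Y + Z) = dc H X + (c * c) • dc H Y + dc H Z
      - c • (dc2 H X Y + dc2 H Y X) - c • (dc2 H Y Z + dc2 H Z Y)
      + (dc2 H X Z + dc2 H Z X) := by
  unfold dc dc2
  simp only [mul_add, add_mul, mul_sub, sub_mul, Matrix.mul_smul, Matrix.smul_mul, smul_smul,
    smul_sub, smul_add]
  module

theorem nxt2_ne (hL : 3 ≤ L) (j : Fin L) : nxt (nxt j) ≠ j := by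
  intro h
  have h1 := congrArg Fin.val h
  simp only [nxt] at h1
  have hj := j.isLt
  rcases Nat.lt_or_ge (j.val + 1) L with h2 | h2
  · rw [Nat.mod_eq_of_lt h2] at h1
    rcases Nat.lt_or_ge (j.val + 1 + 1) L with h3 | h3
    · rw [Nat.mod_eq_of_lt h3] at h1; omega
    · have : j.val + 1 + 1 = L := by omega
      rw [this, Nat.mod_self] at h1; omega
  · have : j.val + 1 = L := by omega
    rw [this, Nat.mod_self, Nat.mod_eq_of_lt (by omega)] at h1; omega

theorem nxt3_ne (hL : 4 ≤ L) (j : Fin L) : nxt (nxt (nxt j)) ≠ j := by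
  intro h
  have h1 := congrArg Fin.val h
  simp only [nxt] at h1
  have hj := j.isLt
  rcases Nat.lt_or_ge (j.val + 1) L with h2 | h2
  · rw [Nat.mod_eq_of_lt h2] at h1
    rcases Nat.lt_or_ge (j.val + 1 + 1) L with h3 | h3
    · rw [Nat.mod_eq_of_lt h3] at h1
      rcases Nat.lt_or_ge (j.val + 1 + 1 + 1) L with h4 | h4
      · rw [Nat.mod_eq_of_lt h4] at h1; omega
      · have : j.val + 1 + 1 + 1 = L := by omega
        rw [this, Nat.mod_self] at h1; omega
    · have : j.val + 1 + 1 = L := by omega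
      rw [this, Nat.mod_self, Nat.mod_eq_of_lt (by omega)] at h1; omega
  · have : j.val + 1 = L := by omega
    rw [this, Nat.mod_self, Nat.mod_eq_of_lt (by omega : 0 + 1 < L),
      Nat.mod_eq_of_lt (by omega : 0 + 1 + 1 < L)] at h1; omega

end Vale.Agent.Lib.P348
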