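import Vale.Agent.Lib.P348.Three0

namespace Vale.Agent.Lib.P348

open Matrix

variable {L : ℕ}

theorem dc2_bond_ab {a b : Fin L} (hab : a ≠ b) :
    ∑ α : Fin 3, dc2 (bond a b) (site a (S α)) (site b (S α)) = (2 : ℂ) • bond a b := by
  have h : ∀ α : Fin 3, dc2 (bond a b) (site a (S α)) (site b (S α))
      = - dc (bond a b) (site a (S α)) := by
    intro α
    have hp := bond_comm_pair hab α
    rw [mul_add, add_mul] at hp
    have hq : bond a b * site b (S α) - site b (S α) * bond a b
        = -(bond a b * site a (S α) - site a (S α) * bond a b) := by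
      rw [neg_sub]
      exact sub_eq_sub_iff_add_eq_add.2 (by rw [add_comm]; exact hp)
    rw [dc2, dc, hq, mul_neg, neg_mul]
    abel
  simp only [h, Finset.sum_neg_distrib, dc_bond_first hab]
  rw [neg_smul, neg_neg]

theorem dc2_bond_ba {a b : Fin L} (hab : a ≠ b) :
    ∑ α : Fin 3, dc2 (bond a b) (site b (S α)) (site a (S α)) = (2 : ℂ) • bond a b := by
  have h : ∀ α : Fin 3, dc2 (bond a b) (site b (S α)) (site a (S α))
      = - dc (bond a b) (site b (S α)) := by
    intro α
    have hp := bond_comm_pair hab α
    rw [mul_add, add_mul] at hp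
    have hq : bond a b * site a (S α) - site a (S α) * bond a b
        = -(bond a b * site b (S α) - site b (S α) * bond a b) := by
      rw [neg_sub]
      exact sub_eq_sub_iff_add_eq_add.2 (by rw [hp, add_comm])
    rw [dc2, dc, hq, mul_neg, neg_mul]
    abel
  simp only [h, Finset.sum_neg_distrib, dc_bond_second hab]
  rw [neg_smul, neg_neg]

/-- the inner commutator vanishes when the inner site is off the bond -/
theorem dc2_bond_inner {a b c d : Fin L} (hda : d ≠ a) (hdb : d ≠ b)
    (X Y : Matrix (Fin 3) (Fin 3) ℂ) : dc2 (bond a b) (site c X) (site d Y) = 0 := by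
  rw [dc2, bond_comm_third hda hdb Y, mul_zero, zero_mul, sub_zero]

/-- the outer commutator vanishes when the outer site is off the bond and differs from the
inner site -/
theorem dc2_bond_outer {a b c d : Fin L} (hca : c ≠ a) (hcb : c ≠ b) (hcd : c ≠ d)
    (X Y : Matrix (Fin 3) (Fin 3) ℂ) : dc2 (bond a b) (site c X) (site d Y) = 0 := by
  have h1 : bond a b * site c X = site c X * bond a b :=
    sub_eq_zero.1 (bond_comm_third hca hcb X)
  have h2 : site c X * site d Y = site d Y * site c X := site_comm hcd X Y
  have e1 : site c X * (bond a b * site d Y) = (bond a b * site d Y) * site c X := by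
    rw [← mul_assoc, ← h1, mul_assoc, h2, mul_assoc]
  have e2 : site c X * (site d Y * bond a b) = (site d Y * bond a b) * site c X := by
    rw [← mul_assoc, h2, mul_assoc, ← h1, mul_assoc]
  rw [dc2, mul_sub, sub_mul, e1, e2, sub_self]

end Vale.Agent.Lib.P348
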