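import Vale.Agent.Lib.P348.Three1

namespace Vale.Agent.Lib.P348

open Matrix

variable {L : ℕ}

theorem dc2_ham_adj (hL : 3 ≤ L) (j : Fin L) :
    ∑ α : Fin 3, dc2 (ham L) (site j (S α)) (site (nxt j) (S α))
      = (2 : ℂ) • bond j (nxt j) := by
  have h2 : 2 ≤ L := by omega
  unfold ham
  simp_rw [dc2_sum]
  rw [Finset.sum_comm, Finset.sum_eq_single j]
  · exact dc2_bond_ab (nxt_ne h2 j).symm
  · intro k _ hk
    apply Finset.sum_eq_zero
    intro α _
    by_cases h : nxt j = k
    · apply dc2_bond_outer (Ne.symm hk) _ (nxt_ne h2 j).symm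
      rw [← h]
      exact (nxt2_ne hL j).symm
    · apply dc2_bond_inner h
      intro h'
      exact hk (nxt_injective h').symm
  · intro h
    exact absurd (Finset.mem_univ j) h

theorem dc2_ham_adj' (hL : 3 ≤ L) (j : Fin L) :
    ∑ α : Fin 3, dc2 (ham L) (site (nxt j) (S α)) (site j (S α))
      = (2 : ℂ) • bond j (nxt j) := by
  have h2 : 2 ≤ L := by omega
  unfold ham
  simp_rw [dc2_sum]
  rw [Finset.sum_comm, Finset.sum_eq_single j]
  · exact dc2_bond_ba (nxt_ne h2 j).symm
  · intro k _ hk
    apply Finset.sum_eq_zero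
    intro α _
    by_cases h : j = nxt k
    · apply dc2_bond_outer _ _ (nxt_ne h2 j)
      · intro h'
        apply nxt2_ne hL j
        rw [h', ← h]
      · intro h'
        exact hk (nxt_injective h').symm
    · exact dc2_bond_inner (Ne.symm hk) h _ _
  · intro h
    exact absurd (Finset.mem_univ j) h

theorem dc2_ham_far (hL : 4 ≤ L) (j : Fin L) (α : Fin 3) :
    dc2 (ham L) (site j (S α)) (site (nxt (nxt j)) (S α)) = 0 := by
  have h2 : 2 ≤ L := by omega
  have h3 : 3 ≤ L := by omega
  unfold ham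
  rw [dc2_sum]
  apply Finset.sum_eq_zero
  intro k _
  by_cases h : nxt (nxt j) = k
  · apply dc2_bond_outer _ _ (nxt2_ne h3 j).symm
    · rw [← h]
      exact (nxt2_ne h3 j).symm
    · rw [← h]
      exact (nxt3_ne hL j).symm
  · by_cases h' : nxt (nxt j) = nxt k
    · have hk : nxt j = k := nxt_injective h'
      apply dc2_bond_outer _ _ (nxt2_ne h3 j).symm
      · rw [← hk]
        exact (nxt_ne h2 j).symm
      · rw [← hk]
        exact (nxt2_ne h3 j).symm
    · exact dc2_bond_inner h h' _ _

theorem dc2_ham_far' (hL : 4 ≤ L) (j : Fin L) (α : Fin 3) :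
    dc2 (ham L) (site (nxt (nxt j)) (S α)) (site j (S α)) = 0 := by
  have h2 : 2 ≤ L := by omega
  have h3 : 3 ≤ L := by omega
  unfold ham
  rw [dc2_sum]
  apply Finset.sum_eq_zero
  intro k _
  by_cases h : j = k
  · apply dc2_bond_outer _ _ (nxt2_ne h3 j)
    · rw [← h]
      exact nxt2_ne h3 j
    · rw [← h]
      intro h'
      exact nxt_ne h2 j (nxt_injective h')
  · by_cases h' : j = nxt k
    · apply dc2_bond_outer _ _ (nxt2_ne h3 j)
      · intro h''
        apply nxt3_ne hL j
        rw [h'', ← h']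
      · rw [← h']
        exact nxt2_ne h3 j
    · exact dc2_bond_inner h h' _ _

end Vale.Agent.Lib.P348
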