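import Vale.Agent.Lib.P348.Three2

namespace Vale.Agent.Lib.P348

open Matrix

variable {L : ℕ}

/-- the sum rule for the three-site operators -/
theorem sum_rule3 (hL : 4 ≤ L) (t : ℝ) :
    ∑ p : Fin L × Fin 3, dc (ham L) (A3 t p.1 p.2)
      = (-(8 + 8 * t + 4 * t ^ 2 : ℝ) : ℂ) • ham L := by
  have hbij : Function.Bijective (nxt : Fin L → Fin L) :=
    Finite.injective_iff_bijective.mp nxt_injective
  have hS : ∑ j : Fin L, ∑ α : Fin 3, dc (ham L) (site j (S α)) = (-4 : ℂ) • ham L := by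
    have h := sum_rule (L := L) (by omega)
    rwa [Fintype.sum_prod_type] at h
  have hS1 : ∑ j : Fin L, ∑ α : Fin 3, dc (ham L) (site (nxt j) (S α)) = (-4 : ℂ) • ham L := by
    rw [← hS]
    exact hbij.sum_comp (fun j => ∑ α : Fin 3, dc (ham L) (site j (S α)))
  have hS2 : ∑ j : Fin L, ∑ α : Fin 3, dc (ham L) (site (nxt (nxt j)) (S α))
      = (-4 : ℂ) • ham L := by
    rw [← hS1]
    exact hbij.sum_comp (fun j => ∑ α : Fin 3, dc (ham L) (site (nxt j) (S α)))
  have hB : ∑ j : Fin L, bond j (nxt j) = ham L := rfl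
  have hB1 : ∑ j : Fin L, bond (nxt j) (nxt (nxt j)) = ham L := by
    rw [← hB]
    exact hbij.sum_comp (fun j => bond j (nxt j))
  have hterm : ∀ j : Fin L, ∑ α : Fin 3, dc (ham L) (A3 t j α) =
      ∑ α : Fin 3, dc (ham L) (site j (S α))
        + ((t : ℂ) * (t : ℂ)) • ∑ α : Fin 3, dc (ham L) (site (nxt j) (S α))
        + ∑ α : Fin 3, dc (ham L) (site (nxt (nxt j)) (S α))
        - (t : ℂ) • ((2 : ℂ) • bond j (nxt j) + (2 : ℂ) • bond j (nxt j))
        - (t : ℂ) • ((2 : ℂ) • bond (nxt j) (nxt (nxt j))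
            + (2 : ℂ) • bond (nxt j) (nxt (nxt j))) := by
    intro j
    simp only [A3, dc_three, dc2_ham_far hL, dc2_ham_far' hL, add_zero, Finset.sum_add_distrib,
      Finset.sum_sub_distrib, ← Finset.smul_sum]
    rw [dc2_ham_adj (by omega) j, dc2_ham_adj' (by omega) j, dc2_ham_adj (by omega) (nxt j),
      dc2_ham_adj' (by omega) (nxt j)]
  rw [Fintype.sum_prod_type]
  simp only [hterm, Finset.sum_add_distrib, Finset.sum_sub_distrib, ← Finset.smul_sum, hS, hS1, hS2,
    hB, hB1]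
  push_cast
  module

end Vale.Agent.Lib.P348
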