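import Vale.Agent.Lib.P348.Three0
import Vale.Agent.Lib.P348.Bounds

namespace Vale.Agent.Lib.P348

open Matrix

variable {L : ℕ}

private theorem smul_real_herm {n : Type*} (t : ℝ) {Y : Matrix n n ℂ} (hY : Y.IsHermitian) :
    ((t : ℂ) • Y).IsHermitian := by
  unfold Matrix.IsHermitian at *
  rw [conjTranspose_smul, hY]
  simp

theorem A3_herm (t : ℝ) (j : Fin L) (α : Fin 3) : (A3 t j α).IsHermitian := by
  unfold A3
  exact ((site_S_herm j α).sub (smul_real_herm t (site_S_herm _ α))).add (site_S_herm _ α)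

theorem B3_herm (u : ℝ) (j : Fin L) (α : Fin 3) : (B3 u j α).IsHermitian := by
  unfold B3
  exact ((site_S_herm j α).add (smul_real_herm u (site_S_herm _ α))).add (site_S_herm _ α)

private theorem sq_identity {n : Type*} [Fintype n] (X Y Z : Matrix n n ℂ)
    (hXY : Y * X = X * Y) (hZY : Z * Y = Y * Z) (t u : ℂ) :
    (X - t • Y + Z) * (X - t • Y + Z) = (X + u • Y + Z) * (X + u • Y + Z)
      + (t ^ 2 - u ^ 2) • (Y * Y) - (2 * (t + u)) • (X * Y + Y * Z) := by
  simp only [add_mul, mul_add, sub_mul, mul_sub, smul_mul_assoc, mul_smul_comm, smul_add,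
    smul_sub, smul_smul, hXY, hZY]
  module

private theorem sum_site_sq (k : Fin L) :
    ∑ α : Fin 3, site k (S α) * site k (S α) = (2 : ℂ) • (1 : Matrix (Cfg L) (Cfg L) ℂ) := by
  rw [Fin.sum_univ_three]
  have h0 : S 0 = Sx := rfl
  have h1 : S 1 = Sy := rfl
  have h2 : S 2 = Sz := rfl
  rw [h0, h1, h2, ← site_mul, ← site_mul, ← site_mul, ← site_add, ← site_add, casimir, site_smul,
    site_one]

/-- operator identity comparing the squares of the two three-site operators -/
theorem A3_sq_sub (hL : 3 ≤ L) (t u : ℝ) (j : Fin L) :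
    ∑ α : Fin 3, A3 t j α * A3 t j α
      = ∑ α : Fin 3, B3 u j α * B3 u j α
        + ((2 * (t ^ 2 - u ^ 2) : ℝ) : ℂ) • (1 : Matrix (Cfg L) (Cfg L) ℂ)
        - ((2 * (t + u) : ℝ) : ℂ) • (bond j (nxt j) + bond (nxt j) (nxt (nxt j))) := by
  have hL2 : 2 ≤ L := by omega
  have key : ∀ α : Fin 3, A3 t j α * A3 t j α = B3 u j α * B3 u j α
      + ((t : ℂ) ^ 2 - (u : ℂ) ^ 2) • (site (nxt j) (S α) * site (nxt j) (S α))
      - (2 * ((t : ℂ) + (u : ℂ))) • (site j (S α) * site (nxt j) (S α)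
        + site (nxt j) (S α) * site (nxt (nxt j)) (S α)) := by
    intro α
    unfold A3 B3
    exact sq_identity _ _ _ (site_comm (nxt_ne hL2 j) _ _) (site_comm (nxt_ne hL2 (nxt j)) _ _) _ _
  rw [Finset.sum_congr rfl (fun α _ => key α), Finset.sum_sub_distrib, Finset.sum_add_distrib,
    ← Finset.smul_sum, ← Finset.smul_sum, Finset.sum_add_distrib, sum_site_sq]
  unfold bond
  rw [smul_smul]
  push_cast
  congr 2
  congr 1
  ring

end Vale.Agent.Lib.P348
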