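import Vale.Agent.Lib.P348.Three4

namespace Vale.Agent.Lib.P348

open Matrix

variable {L : ℕ}

private theorem sq_expect {n : Type*} [Fintype n] (A : Matrix n n ℂ) (hA : A.IsHermitian)
    (ψ : n → ℂ) : star (A *ᵥ ψ) ⬝ᵥ (A *ᵥ ψ) = star ψ ⬝ᵥ ((A * A) *ᵥ ψ) := by
  rw [← Matrix.mulVec_mulVec, Matrix.dotProduct_mulVec (star ψ) A (A *ᵥ ψ), Matrix.star_mulVec,
    hA.eq]

open scoped ComplexOrder in
private theorem nrm_nonneg {n : Type*} [Fintype n] (w : n → ℂ) : 0 ≤ (star w ⬝ᵥ w).re := by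
  have h : (0 : ℂ) ≤ star w ⬝ᵥ w := dotProduct_star_self_nonneg w
  exact (Complex.le_def.1 h).1

/-- lower bound for `∑_α ‖A3 ψ‖²` -/
theorem A3_norm_lower (hL : 3 ≤ L) (t u : ℝ) (j : Fin L) (ψ : Cfg L → ℂ) :
    2 * (t ^ 2 - u ^ 2) * (star ψ ⬝ᵥ ψ).re
        - 2 * (t + u) * ((star ψ ⬝ᵥ (bond j (nxt j) *ᵥ ψ)).re
          + (star ψ ⬝ᵥ (bond (nxt j) (nxt (nxt j)) *ᵥ ψ)).re)
      ≤ ∑ α : Fin 3, (star (A3 t j α *ᵥ ψ) ⬝ᵥ (A3 t j α *ᵥ ψ)).re := by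
  have hA : ∀ α, star (A3 t j α *ᵥ ψ) ⬝ᵥ (A3 t j α *ᵥ ψ)
      = star ψ ⬝ᵥ ((A3 t j α * A3 t j α) *ᵥ ψ) := fun α => sq_expect _ (A3_herm t j α) ψ
  have hB : ∀ α, star (B3 u j α *ᵥ ψ) ⬝ᵥ (B3 u j α *ᵥ ψ)
      = star ψ ⬝ᵥ ((B3 u j α * B3 u j α) *ᵥ ψ) := fun α => sq_expect _ (B3_herm u j α) ψ
  have key : ∑ α : Fin 3, star (A3 t j α *ᵥ ψ) ⬝ᵥ (A3 t j α *ᵥ ψ)
      = ∑ α : Fin 3, star (B3 u j α *ᵥ ψ) ⬝ᵥ (B3 u j α *ᵥ ψ)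
        + ((2 * (t ^ 2 - u ^ 2) : ℝ) : ℂ) * (star ψ ⬝ᵥ ψ)
        - ((2 * (t + u) : ℝ) : ℂ) * (star ψ ⬝ᵥ (bond j (nxt j) *ᵥ ψ)
          + star ψ ⬝ᵥ (bond (nxt j) (nxt (nxt j)) *ᵥ ψ)) := by
    simp only [hA, hB]
    rw [← dotProduct_sum, ← Matrix.sum_mulVec, A3_sq_sub hL t u j, Matrix.sub_mulVec,
      Matrix.add_mulVec, Matrix.smul_mulVec, Matrix.smul_mulVec, Matrix.one_mulVec,
      Matrix.add_mulVec, Matrix.sum_mulVec, dotProduct_sub, dotProduct_add, dotProduct_smul,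
      dotProduct_smul, dotProduct_add, dotProduct_sum]
    simp only [smul_eq_mul]
  have hre := congrArg Complex.re key
  simp only [Complex.re_sum, Complex.add_re, Complex.sub_re, Complex.re_ofReal_mul] at hre
  have hBnn : 0 ≤ ∑ α : Fin 3, (star (B3 u j α *ᵥ ψ) ⬝ᵥ (B3 u j α *ᵥ ψ)).re :=
    Finset.sum_nonneg (fun α _ => nrm_nonneg _)
  rw [hre]
  linarith

/-- summed over the ring -/
theorem A3_norm_lower_sum (hL : 3 ≤ L) (t u : ℝ) (ψ : Cfg L → ℂ) :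
    2 * (t ^ 2 - u ^ 2) * L * (star ψ ⬝ᵥ ψ).re
        - 4 * (t + u) * (star ψ ⬝ᵥ (ham L *ᵥ ψ)).re
      ≤ ∑ p : Fin L × Fin 3, (star (A3 t p.1 p.2 *ᵥ ψ) ⬝ᵥ (A3 t p.1 p.2 *ᵥ ψ)).re := by
  set b : Fin L → ℝ := fun j => (star ψ ⬝ᵥ (bond j (nxt j) *ᵥ ψ)).re with hb
  have hsum : ∑ j, b j = (star ψ ⬝ᵥ (ham L *ᵥ ψ)).re := by
    unfold ham
    rw [Matrix.sum_mulVec, dotProduct_sum, Complex.re_sum]
  have hshift : ∑ j, b (nxt j) = ∑ j, b j :=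
    Function.Bijective.sum_comp (Finite.injective_iff_bijective.mp nxt_injective) b
  have e : 2 * (t ^ 2 - u ^ 2) * L * (star ψ ⬝ᵥ ψ).re
        - 4 * (t + u) * (star ψ ⬝ᵥ (ham L *ᵥ ψ)).re
      = ∑ j : Fin L, (2 * (t ^ 2 - u ^ 2) * (star ψ ⬝ᵥ ψ).re
        - 2 * (t + u) * (b j + b (nxt j))) := by
    rw [Finset.sum_sub_distrib, ← Finset.mul_sum (f := fun j => b j + b (nxt j)),
      Finset.sum_add_distrib, hshift, hsum,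
      Finset.sum_const, Finset.card_univ, Fintype.card_fin, nsmul_eq_mul]
    ring
  rw [e, Fintype.sum_prod_type]
  exact Finset.sum_le_sum (fun j _ => A3_norm_lower hL t u j ψ)

end Vale.Agent.Lib.P348
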