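import Vale.Agent.Lib.P348.Unique
import Vale.Agent.Lib.P348.FirstMoment
import Vale.Agent.Lib.P348.Bounds

/-! # P348: the Lieb-Schultz-Mattis twist: definitions -/

namespace Vale.Agent.Lib.P348

open Matrix

variable {L : ℕ}

/-- the diagonal of `exp (i φ S^z)` on one site -/
noncomputable def dph (φ : ℝ) : Fin 3 → ℂ :=
  ![Complex.exp ((φ : ℂ) * Complex.I), 1, Complex.exp (-((φ : ℂ) * Complex.I))]

/-- the twist operator `exp (i ∑_j φ_j S^z_j)`, a diagonal matrix in the product basis -/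
noncomputable def tw (φ : Fin L → ℝ) : Matrix (Cfg L) (Cfg L) ℂ :=
  Matrix.diagonal fun σ => ∏ j : Fin L, dph (φ j) (σ j)

/-- the Lieb-Schultz-Mattis angles `2 π j / L` -/
noncomputable def lsm (L : ℕ) : Fin L → ℝ := fun j => 2 * Real.pi * (j.val : ℝ) / (L : ℝ)

/-- the transverse part `∑_k (S^x_k S^x_{k+1} + S^y_k S^y_{k+1})` of the Hamiltonian -/
noncomputable def hxy (L : ℕ) : Matrix (Cfg L) (Cfg L) ℂ :=
  ∑ k : Fin L, (site k Sx * site (nxt k) Sx + site k Sy * site (nxt k) Sy)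

end Vale.Agent.Lib.P348
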