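import Vale.Agent.Lib.P348.Tw0

namespace Vale.Agent.Lib.P348

open Matrix

variable {L : ℕ}

theorem dph_star_mul (φ : ℝ) (a : Fin 3) : star (dph φ a) * dph φ a = 1 := by
  have h1 : star (Complex.exp ((φ : ℂ) * Complex.I)) = Complex.exp (-((φ : ℂ) * Complex.I)) := by
    rw [Complex.star_def, ← Complex.exp_conj]
    simp
  have h2 : star (Complex.exp (-((φ : ℂ) * Complex.I))) = Complex.exp ((φ : ℂ) * Complex.I) := by
    rw [Complex.star_def, ← Complex.exp_conj]
    simp
  fin_cases a
  · show star (Complex.exp ((φ : ℂ) * Complex.I)) * Complex.exp ((φ : ℂ) * Complex.I) = 1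
    rw [h1, ← Complex.exp_add]
    simp
  · show star (1 : ℂ) * 1 = 1
    simp
  · show star (Complex.exp (-((φ : ℂ) * Complex.I))) * Complex.exp (-((φ : ℂ) * Complex.I)) = 1
    rw [h2, ← Complex.exp_add]
    simp

/-- conjugating a one-site operator by the twist acts on that site only -/
theorem tw_conj_site (φ : Fin L → ℝ) (j : Fin L) (A : Matrix (Fin 3) (Fin 3) ℂ) :
    (tw φ)ᴴ * site j A * tw φ
      = site j ((Matrix.diagonal (dph (φ j)))ᴴ * A * Matrix.diagonal (dph (φ j))) := by
  ext σ τ
  unfold tw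
  rw [Matrix.diagonal_conjTranspose, Matrix.mul_diagonal, Matrix.diagonal_mul,
    Matrix.diagonal_conjTranspose]
  unfold site
  by_cases h : ∀ k, k ≠ j → σ k = τ k
  · rw [if_pos h, if_pos h, Matrix.mul_diagonal, Matrix.diagonal_mul]
    simp only [Pi.star_apply, star_prod]
    rw [← Finset.mul_prod_erase Finset.univ (fun k => star (dph (φ k) (σ k))) (Finset.mem_univ j),
      ← Finset.mul_prod_erase Finset.univ (fun k => dph (φ k) (τ k)) (Finset.mem_univ j)]
    have h1 : (∏ k ∈ Finset.univ.erase j, star (dph (φ k) (σ k))) *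
        ∏ k ∈ Finset.univ.erase j, dph (φ k) (τ k) = 1 := by
      rw [← Finset.prod_mul_distrib]
      apply Finset.prod_eq_one
      intro k hk
      rw [h k (Finset.ne_of_mem_erase hk)]
      exact dph_star_mul _ _
    linear_combination (star (dph (φ j) (σ j)) * A (σ j) (τ j) * dph (φ j) (τ j)) * h1
  · rw [if_neg h, if_neg h]
    simp

end Vale.Agent.Lib.P348
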