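import Vale.Agent.Lib.P348.Tw0

namespace Vale.Agent.Lib.P348

open Matrix

variable {L : ℕ}

private lemma star_dph_mul (φ : ℝ) (s : Fin 3) : star (dph φ s) * dph φ s = 1 := by
  have h1 : star (Complex.exp ((φ : ℂ) * Complex.I)) = Complex.exp (-((φ : ℂ) * Complex.I)) := by
    rw [Complex.star_def, ← Complex.exp_conj]
    simp
  have h2 : star (Complex.exp (-((φ : ℂ) * Complex.I))) = Complex.exp ((φ : ℂ) * Complex.I) := by
    rw [Complex.star_def, ← Complex.exp_conj]
    simp
  fin_cases s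
  · change star (Complex.exp ((φ : ℂ) * Complex.I)) * Complex.exp ((φ : ℂ) * Complex.I) = 1
    rw [h1, ← Complex.exp_add]
    simp
  · change star (1 : ℂ) * 1 = 1
    simp
  · change star (Complex.exp (-((φ : ℂ) * Complex.I))) * Complex.exp (-((φ : ℂ) * Complex.I)) = 1
    rw [h2, ← Complex.exp_add]
    simp

private lemma star_prod_mul (φ : Fin L → ℝ) (σ : Cfg L) :
    star (∏ j : Fin L, dph (φ j) (σ j)) * ∏ j : Fin L, dph (φ j) (σ j) = 1 := by
  rw [star_prod, ← Finset.prod_mul_distrib]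
  exact Finset.prod_eq_one fun j _ => star_dph_mul (φ j) (σ j)

theorem tw_unitary (φ : Fin L → ℝ) : (tw φ)ᴴ * tw φ = 1 ∧ tw φ * (tw φ)ᴴ = 1 := by
  unfold tw
  rw [Matrix.diagonal_conjTranspose, Matrix.diagonal_mul_diagonal, Matrix.diagonal_mul_diagonal,
    ← Matrix.diagonal_one]
  constructor
  · congr 1
    funext σ
    exact star_prod_mul φ σ
  · congr 1
    funext σ
    rw [mul_comm]
    exact star_prod_mul φ σ

end Vale.Agent.Lib.P348
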