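import Vale.Agent.Lib.P348.Tw0

namespace Vale.Agent.Lib.P348

open Matrix

private lemma conj_entry (d : Fin 3 → ℂ) (M : Matrix (Fin 3) (Fin 3) ℂ) (i j : Fin 3) :
    ((Matrix.diagonal d)ᴴ * M * Matrix.diagonal d) i j = star (d i) * M i j * d j := by
  rw [Matrix.diagonal_conjTranspose, Matrix.mul_diagonal, Matrix.diagonal_mul]
  rfl

private lemma dph_eq (φ : ℝ) : dph φ =
    ![((Real.cos φ : ℝ) : ℂ) + ((Real.sin φ : ℝ) : ℂ) * Complex.I, 1,
      ((Real.cos φ : ℝ) : ℂ) - ((Real.sin φ : ℝ) : ℂ) * Complex.I] := by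
  unfold dph
  have h1 : Complex.exp ((φ : ℂ) * Complex.I)
      = ((Real.cos φ : ℝ) : ℂ) + ((Real.sin φ : ℝ) : ℂ) * Complex.I := by
    rw [Complex.exp_mul_I, Complex.ofReal_cos, Complex.ofReal_sin]
  have h2 : Complex.exp (-((φ : ℂ) * Complex.I))
      = ((Real.cos φ : ℝ) : ℂ) - ((Real.sin φ : ℝ) : ℂ) * Complex.I := by
    rw [← neg_mul, Complex.exp_mul_I, Complex.cos_neg, Complex.sin_neg, Complex.ofReal_cos,
      Complex.ofReal_sin]
    ring
  rw [h1, h2]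

private lemma star_dph (φ : ℝ) (i : Fin 3) : star (dph φ i) =
    ![((Real.cos φ : ℝ) : ℂ) - ((Real.sin φ : ℝ) : ℂ) * Complex.I, 1,
      ((Real.cos φ : ℝ) : ℂ) + ((Real.sin φ : ℝ) : ℂ) * Complex.I] i := by
  rw [dph_eq]
  fin_cases i
  · simp only [Fin.zero_eta, Matrix.cons_val_zero, Complex.star_def, map_add, map_mul,
      Complex.conj_ofReal, Complex.conj_I]
    ring
  · simp
  · simp only [Fin.reduceFinMk, Matrix.cons_val, Complex.star_def, map_sub, map_mul,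
      Complex.conj_ofReal, Complex.conj_I]
    ring

private lemma cs (φ : ℝ) : ((Real.cos φ : ℝ) : ℂ) * ((Real.cos φ : ℝ) : ℂ)
    + ((Real.sin φ : ℝ) : ℂ) * ((Real.sin φ : ℝ) : ℂ) = 1 := by
  have h := Real.cos_sq_add_sin_sq φ
  rw [← Complex.ofReal_mul, ← Complex.ofReal_mul, ← Complex.ofReal_add]
  have : Real.cos φ * Real.cos φ + Real.sin φ * Real.sin φ = 1 := by nlinarith
  rw [this]; simp

theorem dconj_x (φ : ℝ) : (Matrix.diagonal (dph φ))ᴴ * Sx * Matrix.diagonal (dph φ)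
    = ((Real.cos φ : ℝ) : ℂ) • Sx + ((Real.sin φ : ℝ) : ℂ) • Sy := by
  ext i j
  rw [conj_entry, star_dph, dph_eq]
  generalize ((Real.cos φ : ℝ) : ℂ) = c
  generalize ((Real.sin φ : ℝ) : ℂ) = s
  fin_cases i <;> fin_cases j <;> simp [Sx, Sy] <;> ring

theorem dconj_y (φ : ℝ) : (Matrix.diagonal (dph φ))ᴴ * Sy * Matrix.diagonal (dph φ)
    = ((Real.cos φ : ℝ) : ℂ) • Sy - ((Real.sin φ : ℝ) : ℂ) • Sx := by
  ext i j
  rw [conj_entry, star_dph, dph_eq]
  generalize ((Real.cos φ : ℝ) : ℂ) = c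
  generalize ((Real.sin φ : ℝ) : ℂ) = s
  fin_cases i <;> fin_cases j <;> simp [Sx, Sy] <;> ring_nf <;> simp [Complex.I_sq] <;> ring

theorem dconj_z (φ : ℝ) : (Matrix.diagonal (dph φ))ᴴ * Sz * Matrix.diagonal (dph φ) = Sz := by
  ext i j
  rw [conj_entry, star_dph, dph_eq]
  have h := cs φ
  generalize ((Real.cos φ : ℝ) : ℂ) = c at h ⊢
  generalize ((Real.sin φ : ℝ) : ℂ) = s at h ⊢
  fin_cases i <;> fin_cases j <;> simp [Sz]
  · linear_combination h - s * s * Complex.I_sq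
  · linear_combination (-1 : ℂ) * h + s * s * Complex.I_sq

end Vale.Agent.Lib.P348
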