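import Vale.Agent.Lib.P348.Tw1
import Vale.Agent.Lib.P348.Tw2
import Vale.Agent.Lib.P348.Tw3

namespace Vale.Agent.Lib.P348

open Matrix

variable {L : ℕ}

private theorem alg_id {R : Type*} [Ring R] [Algebra ℂ R] (ca sa cb sb : ℂ) (Xa Ya Xb Yb : R) :
    (ca • Xa + sa • Ya) * (cb • Xb + sb • Yb) + (ca • Ya - sa • Xa) * (cb • Yb - sb • Xb)
      = (ca * cb + sa * sb) • (Xa * Xb + Ya * Yb)
        - (sa * cb - ca * sb) • (Xa * Yb - Ya * Xb) := by
  simp only [add_mul, mul_add, sub_mul, mul_sub, smul_mul_assoc, mul_smul_comm, smul_smul,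
    smul_add, smul_sub, add_smul, sub_smul]
  have e1 : cb * ca = ca * cb := mul_comm _ _
  have e2 : sb * ca = ca * sb := mul_comm _ _
  have e3 : cb * sa = sa * cb := mul_comm _ _
  have e4 : sb * sa = sa * sb := mul_comm _ _
  rw [e1, e2, e3, e4]
  abel

/-- the twisted bond -/
theorem tw_conj_bond (φ : Fin L → ℝ) (a b : Fin L) :
    (tw φ)ᴴ * bond a b * tw φ
      = site a Sz * site b Sz
        + ((Real.cos (φ a - φ b) : ℝ) : ℂ) • (site a Sx * site b Sx + site a Sy * site b Sy)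
        - ((Real.sin (φ a - φ b) : ℝ) : ℂ) • (site a Sx * site b Sy - site a Sy * site b Sx) := by
  have hU : tw φ * (tw φ)ᴴ = 1 := (tw_unitary φ).2
  have key : ∀ A B : Matrix (Cfg L) (Cfg L) ℂ,
      (tw φ)ᴴ * (A * B) * tw φ = ((tw φ)ᴴ * A * tw φ) * ((tw φ)ᴴ * B * tw φ) := by
    intro A B
    calc (tw φ)ᴴ * (A * B) * tw φ = (tw φ)ᴴ * A * 1 * B * tw φ := by
          simp only [Matrix.mul_one, Matrix.mul_assoc]
      _ = (tw φ)ᴴ * A * (tw φ * (tw φ)ᴴ) * B * tw φ := by rw [hU]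
      _ = ((tw φ)ᴴ * A * tw φ) * ((tw φ)ᴴ * B * tw φ) := by
          simp only [Matrix.mul_assoc]
  have hb : bond a b = site a Sx * site b Sx + site a Sy * site b Sy + site a Sz * site b Sz := by
    unfold bond
    rw [Fin.sum_univ_three]
    simp [S]
  rw [hb, Matrix.mul_add, Matrix.mul_add, Matrix.add_mul, Matrix.add_mul, key, key, key]
  simp only [tw_conj_site, dconj_x, dconj_y, dconj_z, site_add, site_sub, site_smul]
  rw [alg_id, Real.cos_sub, Real.sin_sub]
  push_cast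
  abel

end Vale.Agent.Lib.P348
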