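import Vale.Agent.Lib.P348.Tw0

namespace Vale.Agent.Lib.P348

variable {L : ℕ}

private theorem lsm_diff (hL : 2 ≤ L) (k : Fin L) :
    lsm L k - lsm L (nxt k) = -(2 * Real.pi / L) ∨
      lsm L k - lsm L (nxt k) = 2 * Real.pi - 2 * Real.pi / L := by
  have hL0 : (L : ℝ) ≠ 0 := by
    have : 0 < L := by omega
    exact_mod_cast this.ne'
  by_cases hk : k.val + 1 < L
  · left
    have e : ((nxt k).val : ℝ) = (k.val : ℝ) + 1 := by
      have : (nxt k).val = k.val + 1 := Nat.mod_eq_of_lt hk
      rw [this]
      push_cast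
      ring
    unfold lsm
    rw [e]
    field_simp
    ring
  · right
    have hk' : k.val + 1 = L := by
      have := k.isLt
      omega
    have e : ((nxt k).val : ℝ) = 0 := by
      have : (nxt k).val = 0 := by
        show (k.val + 1) % L = 0
        rw [hk']
        exact Nat.mod_self L
      rw [this]
      simp
    have e2 : (k.val : ℝ) = (L : ℝ) - 1 := by
      have : ((k.val + 1 : ℕ) : ℝ) = (L : ℝ) := by rw [hk']
      push_cast at this
      linarith
    unfold lsm
    rw [e, e2]
    field_simp
    ring

/-- across every bond of the ring (the closing bond included) the angle drops by `2 π / L`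
modulo `2 π` -/
theorem lsm_cos (hL : 2 ≤ L) (k : Fin L) :
    Real.cos (lsm L k - lsm L (nxt k)) = Real.cos (2 * Real.pi / L) := by
  rcases lsm_diff hL k with h | h
  · rw [h, Real.cos_neg]
  · rw [h, Real.cos_two_pi_sub]

theorem lsm_sin (hL : 2 ≤ L) (k : Fin L) :
    Real.sin (lsm L k - lsm L (nxt k)) = -Real.sin (2 * Real.pi / L) := by
  rcases lsm_diff hL k with h | h
  · rw [h, Real.sin_neg]
  · rw [h, Real.sin_two_pi_sub]

end Vale.Agent.Lib.P348
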