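import Vale.Agent.Lib.P348.Tw4
import Vale.Agent.Lib.P348.Tw5

namespace Vale.Agent.Lib.P348

open Matrix

variable {L : ℕ}

private theorem bond_eq (a b : Fin L) :
    bond a b = site a Sx * site b Sx + site a Sy * site b Sy + site a Sz * site b Sz := by
  unfold bond
  rw [Fin.sum_univ_three]
  simp [S]

private theorem conj_ham (φ : Fin L → ℝ) :
    (tw φ)ᴴ * ham L * tw φ = ∑ k : Fin L, (tw φ)ᴴ * bond k (nxt k) * tw φ := by
  unfold ham
  rw [Finset.mul_sum, Finset.sum_mul]

/-- the twisted plus the oppositely twisted Hamiltonian -/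
theorem ham_twist_sum (hL : 2 ≤ L) :
    (tw (lsm L))ᴴ * ham L * tw (lsm L)
      + (tw (fun j => -lsm L j))ᴴ * ham L * tw (fun j => -lsm L j)
      = (2 : ℂ) • ham L - ((2 * (1 - Real.cos (2 * Real.pi / L)) : ℝ) : ℂ) • hxy L := by
  rw [conj_ham, conj_ham, ← Finset.sum_add_distrib]
  unfold ham hxy
  rw [Finset.smul_sum, Finset.smul_sum, ← Finset.sum_sub_distrib]
  refine Finset.sum_congr rfl fun k _ => ?_
  rw [tw_conj_bond, tw_conj_bond, bond_eq]
  have e : -lsm L k - -lsm L (nxt k) = -(lsm L k - lsm L (nxt k)) := by ring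
  rw [e, Real.cos_neg, Real.sin_neg, lsm_cos hL, lsm_sin hL]
  push_cast
  module

end Vale.Agent.Lib.P348
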