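import Vale.Agent.Lib.P348.Tw0

namespace Vale.Agent.Lib.P348

open Matrix
open scoped Matrix.Norms.L2Operator

variable {L : ℕ}

private theorem cs_aux {n : Type*} [Fintype n] (u v : n → ℂ) :
    -(2 * (star u ⬝ᵥ v).re) ≤ (star u ⬝ᵥ u).re + (star v ⬝ᵥ v).re := by
  simp only [dotProduct, Complex.re_sum, Pi.star_apply, Complex.mul_re, Complex.star_def,
    Complex.conj_re, Complex.conj_im]
  rw [Finset.mul_sum, ← Finset.sum_neg_distrib, ← Finset.sum_add_distrib]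
  apply Finset.sum_le_sum
  intro i _
  nlinarith [sq_nonneg ((u i).re + (v i).re), sq_nonneg ((u i).im + (v i).im)]

private theorem self_nonneg_aux {n : Type*} [Fintype n] (u : n → ℂ) : 0 ≤ (star u ⬝ᵥ u).re := by
  simp only [dotProduct, Complex.re_sum, Pi.star_apply, Complex.mul_re, Complex.star_def,
    Complex.conj_re, Complex.conj_im]
  apply Finset.sum_nonneg
  intro i _
  nlinarith [sq_nonneg ((u i).re), sq_nonneg ((u i).im)]

private theorem prod_lower {n : Type*} [Fintype n] [DecidableEq n] (A B : Matrix n n ℂ)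
    (hA : A.IsHermitian) (nA : ‖A‖ ≤ 1) (nB : ‖B‖ ≤ 1) (ψ : n → ℂ) :
    -(star ψ ⬝ᵥ ((A * B) *ᵥ ψ)).re ≤ (star ψ ⬝ᵥ ψ).re := by
  have e : star ψ ⬝ᵥ ((A * B) *ᵥ ψ) = star (A *ᵥ ψ) ⬝ᵥ (B *ᵥ ψ) := by
    rw [← Matrix.mulVec_mulVec, Matrix.dotProduct_mulVec, Matrix.star_mulVec, hA.eq]
  rw [e]
  have h1 := cs_aux (A *ᵥ ψ) (B *ᵥ ψ)
  have h2 := norm_mulVec_sq_le A ψ
  have h3 := norm_mulVec_sq_le B ψ
  have h0 := self_nonneg_aux ψ
  have hA2 : ‖A‖ ^ 2 ≤ 1 := pow_le_one₀ (norm_nonneg _) nA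
  have hB2 : ‖B‖ ^ 2 ≤ 1 := pow_le_one₀ (norm_nonneg _) nB
  have h4 : ‖A‖ ^ 2 * (star ψ ⬝ᵥ ψ).re ≤ (star ψ ⬝ᵥ ψ).re := by nlinarith
  have h5 : ‖B‖ ^ 2 * (star ψ ⬝ᵥ ψ).re ≤ (star ψ ⬝ᵥ ψ).re := by nlinarith
  linarith

/-- crude lower bound for the transverse energy -/
theorem hxy_lower (ψ : Cfg L → ℂ) :
    -(star ψ ⬝ᵥ (hxy L *ᵥ ψ)).re ≤ 2 * L * (star ψ ⬝ᵥ ψ).re := by
  have key : ∀ (k : Fin L) (α : Fin 3),
      -(star ψ ⬝ᵥ ((site k (S α) * site (nxt k) (S α)) *ᵥ ψ)).re ≤ (star ψ ⬝ᵥ ψ).re :=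
    fun k α => prod_lower _ _ (site_S_herm k α) (norm_site_S k α) (norm_site_S (nxt k) α) ψ
  have hx : Sx = S 0 := rfl
  have hy : Sy = S 1 := rfl
  unfold hxy
  rw [Matrix.sum_mulVec, dotProduct_sum, Complex.re_sum, ← Finset.sum_neg_distrib]
  calc ∑ k : Fin L, -(star ψ ⬝ᵥ
        ((site k Sx * site (nxt k) Sx + site k Sy * site (nxt k) Sy) *ᵥ ψ)).re
      ≤ ∑ _k : Fin L, 2 * (star ψ ⬝ᵥ ψ).re := by
        apply Finset.sum_le_sum
        intro k _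
        rw [Matrix.add_mulVec, dotProduct_add, Complex.add_re, hx, hy]
        have h1 := key k 0
        have h2 := key k 1
        linarith
    _ = 2 * L * (star ψ ⬝ᵥ ψ).re := by
        rw [Finset.sum_const, Finset.card_univ, Fintype.card_fin, nsmul_eq_mul]
        ring

end Vale.Agent.Lib.P348
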