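import Vale.Agent.Lib.P348.FirstMoment

namespace Vale.Agent.Lib.P348

open Matrix

open scoped ComplexOrder in
private theorem nrm_pos8 {n : Type*} [Fintype n] (v : n → ℂ) (hv : v ≠ 0) :
    0 < (star v ⬝ᵥ v).re := by
  have h : (0 : ℂ) < star v ⬝ᵥ v := Matrix.dotProduct_star_self_pos_iff.2 hv
  exact (Complex.lt_def.1 h).1

/-- the gap inequality for a vector that is not orthogonal to the (unique) ground vector -/
theorem gap_overlap {n : Type*} [Fintype n] [DecidableEq n] (H : Matrix n n ℂ)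
    (hH : H.IsHermitian) (E0 E1 : ℝ) (hE1 : IsLeast {x | IsEig H x ∧ x ≠ E0} E1)
    (ψ : n → ℂ) (hψ : H *ᵥ ψ = (E0 : ℂ) • ψ)
    (huniq : ∀ w : n → ℂ, H *ᵥ w = (E0 : ℂ) • w → ∃ c : ℂ, w = c • ψ) (φ : n → ℂ) :
    (E1 - E0) * ((star φ ⬝ᵥ φ).re * (star ψ ⬝ᵥ ψ).re - ‖star ψ ⬝ᵥ φ‖ ^ 2)
      ≤ (star ψ ⬝ᵥ ψ).re * ((star φ ⬝ᵥ (H *ᵥ φ)).re - E0 * (star φ ⬝ᵥ φ).re) := by
  by_cases hψ0 : ψ = 0
  · subst hψ0
    simp
  have hNpos : 0 < (star ψ ⬝ᵥ ψ).re := nrm_pos8 ψ hψ0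
  set N : ℝ := (star ψ ⬝ᵥ ψ).re with hN
  set z : ℂ := star ψ ⬝ᵥ φ with hz
  set A : ℂ := star φ ⬝ᵥ φ with hA
  set B : ℂ := star φ ⬝ᵥ (H *ᵥ φ) with hB
  have hP : star ψ ⬝ᵥ ψ = (N : ℂ) := by
    have h1 : star ψ ⬝ᵥ ψ = star (star ψ ⬝ᵥ ψ) := Matrix.star_dotProduct ψ ψ
    apply Complex.ext
    · simp [hN]
    · have h2 := congrArg Complex.im h1
      simp only [Complex.star_def, Complex.conj_im] at h2
      simp only [Complex.ofReal_im]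
      linarith
  have hzc : star φ ⬝ᵥ ψ = star z := Matrix.star_dotProduct φ ψ
  have hw : z * star z = ((‖z‖ ^ 2 : ℝ) : ℂ) := by
    rw [Complex.star_def, Complex.mul_conj, Complex.normSq_eq_norm_sq]
  have hψH : star ψ ⬝ᵥ (H *ᵥ φ) = (E0 : ℂ) * z := by
    rw [Matrix.dotProduct_mulVec]
    have h1 : star ψ ᵥ* H = star (H *ᵥ ψ) := by
      rw [Matrix.star_mulVec, hH.eq]
    rw [h1, hψ, star_smul, smul_dotProduct, smul_eq_mul, Complex.star_def, Complex.conj_ofReal]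
  set χ : n → ℂ := (N : ℂ) • φ - z • ψ with hχ
  have hsχ : star χ = (N : ℂ) • star φ - star z • star ψ := by
    rw [hχ, star_sub, star_smul, star_smul, Complex.star_def, Complex.conj_ofReal]
  have hHχ : H *ᵥ χ = (N : ℂ) • (H *ᵥ φ) - z • ((E0 : ℂ) • ψ) := by
    rw [hχ, Matrix.mulVec_sub, Matrix.mulVec_smul, Matrix.mulVec_smul, hψ]
  have e0 : star ψ ⬝ᵥ χ = 0 := by
    rw [hχ, dotProduct_sub, dotProduct_smul, dotProduct_smul, hP, ← hz, smul_eq_mul, smul_eq_mul]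
    ring
  have e1 : star χ ⬝ᵥ χ = (N : ℂ) * (N : ℂ) * A - (N : ℂ) * ((‖z‖ ^ 2 : ℝ) : ℂ) := by
    rw [hsχ, sub_dotProduct, smul_dotProduct, smul_dotProduct, e0, hχ, dotProduct_sub,
      dotProduct_smul, dotProduct_smul, hzc, ← hA, ← hw]
    simp only [smul_eq_mul]
    ring
  have e2 : star χ ⬝ᵥ (H *ᵥ χ)
      = (N : ℂ) * (N : ℂ) * B - (N : ℂ) * (E0 : ℂ) * ((‖z‖ ^ 2 : ℝ) : ℂ) := by
    rw [hsχ, hHχ, sub_dotProduct, smul_dotProduct, smul_dotProduct, dotProduct_sub,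
      dotProduct_sub, dotProduct_smul, dotProduct_smul, dotProduct_smul, dotProduct_smul,
      dotProduct_smul, dotProduct_smul, hzc, hP, hψH, ← hB, ← hw]
    simp only [smul_eq_mul]
    ring
  have horth : ∀ w : n → ℂ, H *ᵥ w = (E0 : ℂ) • w → star w ⬝ᵥ χ = 0 := by
    intro w hw'
    obtain ⟨c, rfl⟩ := huniq w hw'
    rw [star_smul, smul_dotProduct, e0, smul_zero]
  have gfm := gap_first_moment H hH E0 E1 hE1 χ horth
  rw [e1, e2] at gfm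
  have r1 : ((N : ℂ) * (N : ℂ) * A - (N : ℂ) * ((‖z‖ ^ 2 : ℝ) : ℂ)).re
      = N * N * A.re - N * ‖z‖ ^ 2 := by
    simp only [Complex.sub_re, Complex.mul_re, Complex.ofReal_re, Complex.ofReal_im,
      Complex.mul_im]
    ring
  have r2 : ((N : ℂ) * (N : ℂ) * B - (N : ℂ) * (E0 : ℂ) * ((‖z‖ ^ 2 : ℝ) : ℂ)).re
      = N * N * B.re - N * E0 * ‖z‖ ^ 2 := by
    simp only [Complex.sub_re, Complex.mul_re, Complex.ofReal_re, Complex.ofReal_im,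
      Complex.mul_im]
    ring
  rw [r1, r2] at gfm
  refine le_of_mul_le_mul_left ?_ hNpos
  linarith

end Vale.Agent.Lib.P348
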