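import Mathlib

namespace Vale.Agent.Lib.P348

open Matrix

/-- expectation in a transformed vector -/
theorem expect_conj {n : Type*} [Fintype n] (H U : Matrix n n ℂ) (ψ : n → ℂ) :
    star (U *ᵥ ψ) ⬝ᵥ (H *ᵥ (U *ᵥ ψ)) = star ψ ⬝ᵥ ((Uᴴ * H * U) *ᵥ ψ) := by
  rw [Matrix.star_mulVec, ← Matrix.dotProduct_mulVec, Matrix.mulVec_mulVec, Matrix.mulVec_mulVec,
    Matrix.mul_assoc]

/-- a matrix with `Uᴴ U = 1` preserves the norm -/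
theorem nrm_conj {n : Type*} [Fintype n] [DecidableEq n] (U : Matrix n n ℂ) (hU : Uᴴ * U = 1)
    (ψ : n → ℂ) : star (U *ᵥ ψ) ⬝ᵥ (U *ᵥ ψ) = star ψ ⬝ᵥ ψ := by
  rw [Matrix.star_mulVec, ← Matrix.dotProduct_mulVec, Matrix.mulVec_mulVec, hU, Matrix.one_mulVec]

end Vale.Agent.Lib.P348
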